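import Vale.Agent.P147.Dir.Cone

/-!
The chain of attempts: a block leaving many cones has geometrically small probability.
-/

noncomputable section

namespace Vale.Agent.P147

open MeasureTheory ProbabilityTheory Filter
open scoped ENNReal

set_option linter.unusedSectionVars false

variable {d : ℕ} {μ : Measure (Row d)} {ℓ : Fin d → ℤ} {ψ : (Fin d → ℤ) →+ ℤ} {sl h Lam k : ℕ}

/-- The tilted coordinate. -/
def wt (ℓ : Fin d → ℤ) (ψ : (Fin d → ℤ) →+ ℤ) (sl : ℕ) : (Fin d → ℤ) →+ ℤ :=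
  ψ + (2 * sl : ℤ) • lev ℓ

lemma wt_apply (x : Fin d → ℤ) : wt ℓ ψ sl x = ψ x + 2 * sl * lev ℓ x := by
  simp [wt]

/-- Bound for one step of the tilted coordinate. -/
def wstep (ℓ : Fin d → ℤ) (sl : ℕ) : ℕ := 1 + 2 * sl * stepBound ℓ

lemma abs_wt_step (hψ : ∀ e, |ψ (dirVec e)| ≤ 1) (e : Dir d) :
    |wt ℓ ψ sl (dirVec e)| ≤ wstep ℓ sl := by
  rw [wt_apply, wstep]
  refine (abs_add_le _ _).trans ?_
  push_cast
  refine add_le_add (hψ e) ?_
  rw [abs_mul, abs_of_nonneg (by positivity : (0 : ℤ) ≤ 2 * sl)]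
  exact mul_le_mul_of_nonneg_left (abs_lev_dirVec_le ℓ e) (by positivity)

lemma wt_succ_le (hψ : ∀ e, |ψ (dirVec e)| ≤ 1) (s : Walk d) (n : ℕ) :
    wt ℓ ψ sl (pos s (n + 1)) ≤ wt ℓ ψ sl (pos s n) + wstep ℓ sl := by
  have h1 : pos s (n + 1) = pos s n + dirVec (s n) := by simp [pos, Finset.sum_range_succ]
  rw [h1, map_add]
  have := (abs_le.1 (abs_wt_step (ℓ := ℓ) (sl := sl) hψ (s n))).2
  omega

/-- The advance allowed to one failed attempt, per unit of height. -/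
def adv (ℓ : Fin d → ℤ) (sl : ℕ) : ℕ := 3 * sl + 1 + 2 * wstep ℓ sl

/-- A quasi-record end point. -/
def QR (ℓ : Fin d → ℤ) (ψ : (Fin d → ℤ) →+ ℤ) (sl h : ℕ) (l : List (Dir d)) : Prop :=
  ∀ i < l.length, Lt ℓ l i ≤ lev ℓ (endPt l) + h ∧
    (lev ℓ (endPt l) ≤ Lt ℓ l i → wt ℓ ψ sl (endPt (l.take i)) < wt ℓ ψ sl (endPt l))

/-- A quasi-record end point showing a deviation near the level `c`. -/
def Trig (ℓ : Fin d → ℤ) (ψ : (Fin d → ℤ) →+ ℤ) (sl h Lam c : ℕ) (l : List (Dir d)) : Prop :=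
  QR ℓ ψ sl h l ∧ (∀ i ≤ l.length, 0 ≤ Lt ℓ l i) ∧
    ∃ m : ℕ, 1 ≤ m ∧ m ≤ h ∧ (∀ i ≤ l.length, Lt ℓ l i ≤ (c : ℤ) + m) ∧
      ∃ u ≤ l.length, (∃ i ≤ u, (c : ℤ) - m ≤ Lt ℓ l i) ∧
        (Lam * m : ℤ) < wt ℓ ψ sl (endPt l) - wt ℓ ψ sl (endPt (l.take u))

/-- The consecutive regeneration times `a`, `b` straddle `c` and are at most `h` levels apart. -/
def Covers (ℓ : Fin d → ℤ) (h : ℕ) (s : Walk d) (c a b : ℕ) : Prop :=
  RegenTime ℓ s a ∧ RegenTime ℓ s b ∧ a < b ∧ (∀ i, a < i → i < b → ¬RegenTime ℓ s i) ∧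
    lev ℓ (pos s a) ≤ c ∧ (c : ℤ) < lev ℓ (pos s b) ∧ lev ℓ (pos s b) ≤ lev ℓ (pos s a) + h

/-- The block straddling `c` has tilted extent beyond `k` advances. -/
def Giant (ℓ : Fin d → ℤ) (ψ : (Fin d → ℤ) →+ ℤ) (sl h Lam k c : ℕ) : Set (Walk d) :=
  {s | ∃ a b n, Covers ℓ h s c a b ∧ a ≤ n ∧ n ≤ b ∧
    ((Lam : ℤ) + k * adv ℓ sl) * (lev ℓ (pos s b) - lev ℓ (pos s a)) <
      wt ℓ ψ sl (pos s n) - wt ℓ ψ sl (pos s a)}

/-- `Giant` seen from a prefix ending before the crossing of threshold `i`. -/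
def Wit (ℓ : Fin d → ℤ) (ψ : (Fin d → ℤ) →+ ℤ) (sl h Lam k c : ℕ) (l : List (Dir d)) (i : ℕ) :
    Set (Walk d) :=
  cyl l ∩ {s | ∃ a b n, Covers ℓ h s c a b ∧ a ≤ n ∧ n ≤ b ∧
    ((Lam : ℤ) + k * adv ℓ sl) * (lev ℓ (pos s b) - lev ℓ (pos s a)) <
      wt ℓ ψ sl (pos s n) - wt ℓ ψ sl (pos s a) ∧
    ∀ u, a ≤ u → u ≤ b → u < l.length → wt ℓ ψ sl (pos s u) - wt ℓ ψ sl (pos s a) ≤
      ((Lam : ℤ) + i * adv ℓ sl) * (lev ℓ (pos s b) - lev ℓ (pos s a))}

lemma measurableSet_giant (c : ℕ) : MeasurableSet (Giant ℓ ψ sl h Lam k c) := by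
  have e : Giant ℓ ψ sl h Lam k c = ⋃ a : ℕ, ⋃ b : ℕ, ⋃ n : ℕ,
      ({s : Walk d | RegenTime ℓ s a} ∩ {s | RegenTime ℓ s b} ∩
        (⋂ i : ℕ, ({s : Walk d | RegenTime ℓ s i}ᶜ ∪ {_s | ¬(a < i ∧ i < b)})) ∩
        {s | (fun q : (Fin d → ℤ) × (Fin d → ℤ) × (Fin d → ℤ) =>
          a < b ∧ a ≤ n ∧ n ≤ b ∧ lev ℓ q.1 ≤ c ∧ (c : ℤ) < lev ℓ q.2.1 ∧
            lev ℓ q.2.1 ≤ lev ℓ q.1 + h ∧
            ((Lam : ℤ) + k * adv ℓ sl) * (lev ℓ q.2.1 - lev ℓ q.1) <
              wt ℓ ψ sl q.2.2 - wt ℓ ψ sl q.1) (pos s a, pos s b, pos s n)}) := by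
    ext s
    simp only [Giant, Covers, Set.mem_iUnion, Set.mem_inter_iff, Set.mem_ofPred_eq, Set.mem_iInter,
      Set.mem_union, Set.mem_compl_iff]
    constructor
    · rintro ⟨a, b, n, ⟨ra, rb, hab, hno, h1, h2, h3⟩, h4, h5, h6⟩
      exact ⟨a, b, n, ⟨⟨ra, rb⟩, fun i => (em (RegenTime ℓ s i)).symm.imp id
        fun hr hi => hno i hi.1 hi.2 hr⟩, hab, h4, h5, h1, h2, h3, h6⟩
    · rintro ⟨a, b, n, ⟨⟨ra, rb⟩, hno⟩, hab, h4, h5, h1, h2, h3, h6⟩
      exact ⟨a, b, n, ⟨ra, rb, hab, fun i hi hi' hr => (hno i).elim (fun hh => hh hr)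
        (fun hh => hh ⟨hi, hi'⟩), h1, h2, h3⟩, h4, h5, h6⟩
  rw [e]
  refine MeasurableSet.iUnion fun a => MeasurableSet.iUnion fun b => MeasurableSet.iUnion fun n =>
    (((measurableSet_regenTime ℓ a).inter (measurableSet_regenTime ℓ b)).inter
      (MeasurableSet.iInter fun i => (measurableSet_regenTime ℓ i).compl.union (.const _))).inter
      ?_
  exact ((measurable_pos a).prodMk ((measurable_pos b).prodMk (measurable_pos n)))
    (Set.to_countable {q : (Fin d → ℤ) × (Fin d → ℤ) × (Fin d → ℤ) |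
      a < b ∧ a ≤ n ∧ n ≤ b ∧ lev ℓ q.1 ≤ c ∧ (c : ℤ) < lev ℓ q.2.1 ∧
        lev ℓ q.2.1 ≤ lev ℓ q.1 + h ∧
        ((Lam : ℤ) + k * adv ℓ sl) * (lev ℓ q.2.1 - lev ℓ q.1) <
          wt ℓ ψ sl q.2.2 - wt ℓ ψ sl q.1}).measurableSet

variable [IsProbabilityMeasure μ]

lemma take_of_cyl {l : List (Dir d)} {s : Walk d} (hs : s ∈ cyl l) {n : ℕ} (hn : l.length ≤ n) :
    (pre s n).take l.length = l := by
  conv_rhs => rw [← (mem_cyl_iff l s).1 hs]
  exact List.ext_getElem (by simp; omega) fun i _ _ => by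
    rw [List.getElem_take, getElem_pre, getElem_pre]

lemma drop_pre_shift (s : Walk d) (x r : ℕ) :
    (pre s (x + r)).drop x = pre (shift x s) r := by
  rw [pre_append_shift, List.drop_left' (length_pre _ _)]

lemma good_fresh (hsl : 1 ≤ sl) {l : List (Dir d)} (hl : QR ℓ ψ sl h l) {s : Walk d}
    (hs : s ∈ CGood ℓ ψ sl h) (n : ℕ) : endPt l + pos s n ∉ srcs 0 l := by
  intro hmem
  obtain ⟨i, hi, hz⟩ := mem_srcs.1 hmem
  rw [zero_add] at hz
  obtain ⟨hh, hw⟩ := hl i hi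
  have hl1 := congrArg (lev ℓ) hz
  have hw1 := congrArg (wt ℓ ψ sl) hz
  rw [map_add] at hl1 hw1
  simp only [Lt] at hh hw
  have h0 := hs.1.1 n
  have := hw (by omega)
  rcases Nat.eq_zero_or_pos n with rfl | hn
  · simp only [pos, Finset.sum_range_zero, map_zero] at hw1 hl1
    omega
  by_cases hN : NoHigh ℓ h s n
  · have h1 := hs.2.2 n hN
    have h2 := hs.2.1 n hn
    rw [wt_apply (ψ := ψ) (pos s n)] at hw1
    have h3 : (1 : ℤ) * 1 ≤ sl * lev ℓ (pos s n) :=
      mul_le_mul (by exact_mod_cast hsl) h2 zero_le_one (by positivity)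
    have := (abs_le.1 h1).1
    linarith
  · simp only [NoHigh, not_forall, not_le] at hN
    obtain ⟨j, hj, hreg, hjh⟩ := hN
    have := hreg.2 n hj
    omega

/-- First failures after a quasi-record. -/
def FailFrom (ℓ : Fin d → ℤ) (ψ : (Fin d → ℤ) →+ ℤ) (sl h : ℕ) (m : List (Dir d)) :
    Set (List (Dir d)) :=
  {l | m.length ≤ l.length ∧ l.take m.length = m ∧ CFail ℓ ψ sl h (l.drop m.length) ∧
    ∀ r, m.length ≤ r → r < l.length → ¬CFail ℓ ψ sl h ((l.take r).drop m.length)}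

/-- First quasi-records after a given prefix. -/
def NextQR (ℓ : Fin d → ℤ) (ψ : (Fin d → ℤ) →+ ℤ) (sl h : ℕ) (m : List (Dir d)) :
    Set (List (Dir d)) :=
  {l | m.length < l.length ∧ l.take m.length = m ∧ QR ℓ ψ sl h l ∧
    ∀ r, m.length < r → r < l.length → ¬QR ℓ ψ sl h (l.take r)}

lemma pre_take' (s : Walk d) {a b : ℕ} (hab : a ≤ b) : (pre s b).take a = pre s a :=
  List.ext_getElem (by simp; omega) fun i _ _ => by
    rw [List.getElem_take, getElem_pre, getElem_pre]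

lemma failFrom_unique (m : List (Dir d)) (s : Walk d) (a b : ℕ)
    (ha : pre s a ∈ FailFrom ℓ ψ sl h m) (hb : pre s b ∈ FailFrom ℓ ψ sl h m) : a = b := by
  by_contra hne
  wlog hab : a < b generalizing a b
  · exact this b a hb ha (Ne.symm hne) (by omega)
  have h1 : m.length ≤ a := by simpa using ha.1
  exact hb.2.2.2 a h1 (by simpa using hab) (by rw [pre_take' s hab.le]; exact ha.2.2.1)

lemma nextQR_unique (m : List (Dir d)) (s : Walk d) (a b : ℕ)
    (ha : pre s a ∈ NextQR ℓ ψ sl h m) (hb : pre s b ∈ NextQR ℓ ψ sl h m) : a = b := by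
  by_contra hne
  wlog hab : a < b generalizing a b
  · exact this b a hb ha (Ne.symm hne) (by omega)
  have h1 : m.length < a := by simpa using ha.1
  exact hb.2.2.2 a h1 (by simpa using hab) (by rw [pre_take' s hab.le]; exact ha.2.2.1)

lemma sum_failFrom_le (hsl : 1 ≤ sl) {m : List (Dir d)} (hm : QR ℓ ψ sl h m) :
    ∑' l : FailFrom ℓ ψ sl h m, W μ l.1 ≤
      (1 - annealed μ (CGood ℓ ψ sl h)) * W μ m := by
  classical
  refine (tsum_W_le (failFrom_unique m)
    (E := cyl m \ shift m.length ⁻¹' CGood ℓ ψ sl h) ?_).trans ?_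
  · intro l hl s hs
    refine ⟨cyl_subset_of_take hl.2.1 hs, fun hG => ?_⟩
    have h1 := not_fail_of_good hG (l.length - m.length)
    rw [← drop_pre_shift, Nat.add_sub_cancel' hl.1, (mem_cyl_iff _ _).1 hs] at h1
    exact h1 hl.2.2.1
  · rw [← Set.sdiff_self_inter, measure_sdiff Set.inter_subset_left
      (((measurableSet_cyl _).inter
        (measurable_shift _ (measurableSet_good ℓ ψ sl h))).nullMeasurableSet) (measure_ne_top _ _),
      annealed_fresh _ (measurableSet_good ℓ ψ sl h) (fun s hs n => good_fresh hsl hm hs n),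
      annealed_cyl, ENNReal.sub_mul (fun _ _ => W_ne_top _), one_mul, mul_comm]

/-- Crossing times of thresholds are quasi-records. -/
lemma qr_crossing {s : Walk d} {c a b t : ℕ} (hC : Covers ℓ h s c a b) (hat : a ≤ t) (htb : t ≤ b)
    {θ : ℤ} (ht : θ < wt ℓ ψ sl (pos s t))
    (hlow : ∀ u, a ≤ u → u < t → wt ℓ ψ sl (pos s u) ≤ θ) : QR ℓ ψ sl h (pre s t) := by
  obtain ⟨ra, rb, -, -, -, -, hH⟩ := hC
  intro i hi
  rw [length_pre] at hi
  rw [endPt_take_pre s hi.le, endPt_pre, Lt_pre s hi.le]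
  have h1 := ra.2 t hat
  refine ⟨?_, fun hl => ?_⟩
  · rcases lt_or_ge i a with h2 | h2
    · have := ra.1 i h2; omega
    · have : lev ℓ (pos s i) ≤ lev ℓ (pos s b) := by
        rcases (hi.trans_le htb).le.lt_or_eq with h3 | h3
        · exact (rb.1 i h3).le
        · rw [h3]
      omega
  · rcases lt_or_ge i a with h2 | h2
    · have := ra.1 i h2; omega
    · exact lt_of_le_of_lt (hlow i h2 hi) ht

/-- A witness restarts at a regeneration or produces a failed attempt and a new quasi-record. -/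
lemma wit_step (hψ : ∀ e, |ψ (dirVec e)| ≤ 1) {m : List (Dir d)} {c i : ℕ} (hik : i + 1 ≤ k)
    {s : Walk d} (hs : s ∈ Wit ℓ ψ sl h Lam k c m i) :
    (∃ a, m.length ≤ a ∧ RegenTime ℓ s a ∧ (∀ j, m.length ≤ j → j < a → ¬RegenTime ℓ s j) ∧
      lev ℓ (pos s a) ≤ c ∧
      shift a s ∈ Giant ℓ ψ sl h Lam k (c - (lev ℓ (pos s a)).toNat)) ∨
    ∃ r t, pre s r ∈ FailFrom ℓ ψ sl h m ∧ pre s t ∈ NextQR ℓ ψ sl h (pre s r) ∧
      s ∈ Wit ℓ ψ sl h Lam k c (pre s t) (i + 1) := by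
  classical
  obtain ⟨hcyl, a, b, n, hC, han, hnb, hbig, hlow⟩ := hs
  obtain ⟨ra, rb, hab, hno, hac, hcb, hH⟩ := hC
  by_cases hma : m.length ≤ a
  · -- restart at the first regeneration after the prefix
    have hex : ∃ j, m.length ≤ j ∧ RegenTime ℓ s j := ⟨a, hma, ra⟩
    obtain ⟨hj1, hj2⟩ := Nat.find_spec hex
    set j := Nat.find hex
    have hja : j ≤ a := Nat.find_le ⟨hma, ra⟩
    refine Or.inl ⟨j, hj1, hj2, fun u hu hu' hr => Nat.find_min hex hu' ⟨hu, hr⟩,
      (hj2.2 a hja).trans hac, ?_⟩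
    have h0 : 0 ≤ lev ℓ (pos s j) := by
      rcases Nat.eq_zero_or_pos j with h | h
      · simp [h, pos]
      · have := hj2.1 0 h
        simp only [pos, Finset.sum_range_zero, map_zero] at this ⊢
        omega
    have hsub : ∀ u, j ≤ u → pos (shift j s) (u - j) = pos s u - pos s j := by
      intro u hu
      have := pos_add s j (u - j)
      rw [Nat.add_sub_cancel' hu] at this
      rw [this]; abel
    have hregS : ∀ u, j ≤ u → RegenTime ℓ s u → RegenTime ℓ (shift j s) (u - j) := by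
      intro u hu hr
      refine ⟨fun v hv => ?_, fun v hv => ?_⟩
      · have := hr.1 (j + v) (by omega)
        rw [lev_pos_shift, show u = j + (u - j) by omega, lev_pos_shift] at this
        linarith
      · have := hr.2 (j + v) (by omega)
        rw [lev_pos_shift, show u = j + (u - j) by omega, lev_pos_shift] at this
        linarith
    have hjc := (hj2.2 a hja).trans hac
    have hca : ((c - (lev ℓ (pos s j)).toNat : ℕ) : ℤ) = c - lev ℓ (pos s j) := by
      rw [Nat.cast_sub (by omega), Int.toNat_of_nonneg h0]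
    refine ⟨a - j, b - j, n - j, ⟨hregS a hja ra, hregS b (by omega) rb, by omega,
      fun u hu hu' hr => hno (j + u) (by omega) (by omega) ⟨fun v hv => ?_, fun v hv => ?_⟩,
      ?_, ?_, ?_⟩, by omega, by omega, ?_⟩
    · rcases lt_or_ge v j with hvj | hvj
      · have h1 := hj2.1 v hvj
        have h2 := hj2.2 (j + u) (by omega)
        omega
      · obtain ⟨w, rfl⟩ := Nat.exists_eq_add_of_le hvj
        rw [lev_pos_shift, lev_pos_shift]
        have := hr.1 w (by omega)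
        linarith
    · obtain ⟨w, rfl⟩ := Nat.exists_eq_add_of_le (show j ≤ v by omega)
      rw [lev_pos_shift, lev_pos_shift]
      have := hr.2 w (by omega)
      linarith
    · rw [hsub a hja, map_sub, hca]; linarith
    · rw [hsub b (by omega), map_sub, hca]; linarith
    · rw [hsub a hja, hsub b (by omega), map_sub, map_sub]; linarith
    · rw [hsub a hja, hsub b (by omega), hsub n (by omega), map_sub, map_sub, map_sub, map_sub]
      simpa using hbig
  -- the prefix ends inside the block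
  rw [not_le] at hma
  refine Or.inr ?_
  set H := lev ℓ (pos s b) - lev ℓ (pos s a) with hHdef
  set D : ℤ := ((adv ℓ sl : ℕ) : ℤ) with hD
  have hH1 : 1 ≤ H := by omega
  have hmono : ∀ p q : ℕ, p ≤ q → ((Lam : ℤ) + p * D) * H ≤ ((Lam : ℤ) + q * D) * H :=
    fun p q hpq => mul_le_mul_of_nonneg_right (by
      have : (p : ℤ) * D ≤ q * D :=
        mul_le_mul_of_nonneg_right (by exact_mod_cast hpq) (by positivity)
      linarith) (by omega)
  -- first crossing of the next threshold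
  have hex : ∃ u, a ≤ u ∧ u ≤ b ∧
      ((Lam : ℤ) + ((i + 1 : ℕ) : ℤ) * D) * H < wt ℓ ψ sl (pos s u) - wt ℓ ψ sl (pos s a) :=
    ⟨n, han, hnb, (hmono _ _ hik).trans_lt hbig⟩
  obtain ⟨hau, hub, hucross⟩ := Nat.find_spec hex
  set τ := Nat.find hex
  have hτlow : ∀ u, a ≤ u → u < τ → wt ℓ ψ sl (pos s u) - wt ℓ ψ sl (pos s a) ≤
      ((Lam : ℤ) + ((i + 1 : ℕ) : ℤ) * D) * H := fun u hu hu' => by
    have h2 := Nat.find_min hex hu'
    push Not at h2
    exact h2 hu (hu'.le.trans hub)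
  have hx : m.length ≤ τ := by
    by_contra hc
    rw [not_le] at hc
    have := (hlow τ hau hub hc).trans (hmono i (i + 1) (by omega))
    linarith
  have hδ : (0 : ℤ) ≤ wstep ℓ sl := Int.natCast_nonneg _
  -- the tilted coordinate at the end of the prefix
  have hwm : wt ℓ ψ sl (pos s m.length) - wt ℓ ψ sl (pos s a) ≤
      ((Lam : ℤ) + i * D) * H + wstep ℓ sl := by
    have h1 := hlow (m.length - 1) (by omega) (by omega) (by omega)
    have h2 := wt_succ_le (ℓ := ℓ) (sl := sl) hψ s (m.length - 1)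
    rw [Nat.sub_add_cancel (by omega : 1 ≤ m.length)] at h2
    linarith
  have hDH : ((Lam : ℤ) + i * D) * H + wstep ℓ sl + wstep ℓ sl + (3 * sl * H + 1) ≤
      ((Lam : ℤ) + ((i + 1 : ℕ) : ℤ) * D) * H := by
    have h1 : (1 + 2 * (wstep ℓ sl : ℤ)) * 1 ≤ (1 + 2 * (wstep ℓ sl : ℤ)) * H :=
      mul_le_mul_of_nonneg_left hH1 (by positivity)
    simp only [hD, adv]
    push_cast
    linarith
  -- a failure before the crossing
  have hfail : ∃ r, r + m.length < τ ∧ CFail ℓ ψ sl h (pre (shift m.length s) r) := by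
    by_contra hc
    push Not at hc
    rcases hx.eq_or_lt with h1 | h1
    · rw [← h1] at hucross
      have : 0 ≤ 3 * (sl : ℤ) * H + 1 := by positivity
      linarith
    obtain ⟨r, hr⟩ := Nat.exists_eq_add_of_le (show m.length ≤ τ - 1 by omega)
    have hnf := hc r (by omega)
    simp only [CFail, length_pre, not_exists, not_and, not_or] at hnf
    have h2 := (hnf r le_rfl).2
    rw [Lt_pre _ le_rfl, endPt_take_pre _ le_rfl] at h2
    set L := lev ℓ (pos (shift m.length s) r)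
    have hLv : lev ℓ (pos s (τ - 1)) = lev ℓ (pos s m.length) + L := by rw [hr, lev_pos_shift]
    have hin : ∀ u, a ≤ u → u ≤ b → lev ℓ (pos s a) ≤ lev ℓ (pos s u) ∧
        lev ℓ (pos s u) ≤ lev ℓ (pos s b) := fun u hu hu' => ⟨ra.2 u hu, by
      rcases hu'.lt_or_eq with h3 | h3
      · exact (rb.1 u h3).le
      · rw [h3]⟩
    have i1 := hin m.length hma.le (by omega)
    have i2 := hin (τ - 1) (by omega) (by omega)
    have hLH : L ≤ H := by omega
    have hψb : |ψ (pos (shift m.length s) r)| ≤ sl * L + 1 := by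
      by_contra hgt
      rw [not_le] at hgt
      refine h2 hgt fun j hj hlt => ?_
      rw [Lt_pre _ hj] at hlt
      have i3 := hin (m.length + j) (by omega) (by omega)
      rw [lev_pos_shift] at i3
      omega
    have hw : wt ℓ ψ sl (pos (shift m.length s) r) ≤ 3 * sl * H + 1 := by
      rw [wt_apply]
      have h3 : 3 * (sl : ℤ) * L ≤ 3 * sl * H := mul_le_mul_of_nonneg_left hLH (by positivity)
      have := (abs_le.1 hψb).2
      linarith
    have h4 := wt_succ_le (ℓ := ℓ) (sl := sl) hψ s (τ - 1)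
    rw [Nat.sub_add_cancel (by omega : 1 ≤ τ), hr, pos_add, map_add] at h4
    linarith
  obtain ⟨hr1, hr2⟩ := Nat.find_spec hfail
  set r := Nat.find hfail
  have hmem : pre s (m.length + r) ∈ FailFrom ℓ ψ sl h m := by
    refine ⟨by simp, take_of_cyl hcyl (by omega), ?_, fun q hq hq' => ?_⟩
    · rw [drop_pre_shift]; exact hr2
    · rw [length_pre] at hq'
      obtain ⟨v, rfl⟩ := Nat.exists_eq_add_of_le hq
      rw [pre_take' s hq'.le, drop_pre_shift]
      exact fun hf => Nat.find_min hfail (show v < r by omega) ⟨by omega, hf⟩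
  have hqr : QR ℓ ψ sl h (pre s τ) := by
    refine qr_crossing (θ := wt ℓ ψ sl (pos s a) + ((Lam : ℤ) + ((i + 1 : ℕ) : ℤ) * D) * H)
      ⟨ra, rb, hab, hno, hac, hcb, hH⟩ hau hub (by linarith) fun u hu hu' => ?_
    have := hτlow u hu hu'
    linarith
  have hex2 : ∃ t, m.length + r < t ∧ QR ℓ ψ sl h (pre s t) := ⟨τ, by omega, hqr⟩
  obtain ⟨ht1, ht2⟩ := Nat.find_spec hex2
  set t := Nat.find hex2
  have htτ : t ≤ τ := Nat.find_le ⟨by omega, hqr⟩
  refine ⟨m.length + r, t, hmem, ⟨by simpa using ht1, ?_, ht2, fun q hq hq' => ?_⟩,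
    (mem_cyl_iff _ _).2 (by simp), a, b, n, ⟨ra, rb, hab, hno, hac, hcb, hH⟩, han, hnb, hbig,
    fun u hu _ hu' => hτlow u hu (lt_of_lt_of_le (by simpa using hu') htτ)⟩
  · rw [length_pre]; exact pre_take' s ht1.le
  · rw [length_pre] at hq hq'
    rw [pre_take' s hq'.le]
    exact fun hq2 => Nat.find_min hex2 hq' ⟨hq, hq2⟩

/-- Largest probability of a giant block around a level. -/
def giantSup (μ : Measure (Row d)) (ℓ : Fin d → ℤ) (ψ : (Fin d → ℤ) →+ ℤ) (sl h Lam k : ℕ) :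
    ℝ≥0∞ :=
  ⨆ c : ℕ, annealed μ (Dp ℓ ∩ Giant ℓ ψ sl h Lam k c)

/-- Restarts at the first regeneration after a prefix. -/
lemma restart_le (hp : annealed μ (Dp ℓ) ≠ 0) (m : List (Dir d)) (c : ℕ) :
    annealed μ (cyl m ∩ Ap ℓ ∩ {s | ∃ a, m.length ≤ a ∧ RegenTime ℓ s a ∧
      (∀ j, m.length ≤ j → j < a → ¬RegenTime ℓ s j) ∧ lev ℓ (pos s a) ≤ c ∧
      shift a s ∈ Giant ℓ ψ sl h Lam k (c - (lev ℓ (pos s a)).toNat)}) ≤
      W μ m * (giantSup μ ℓ ψ sl h Lam k / annealed μ (Dp ℓ)) := by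
  classical
  set p := annealed μ (Dp ℓ)
  set Φ := giantSup μ ℓ ψ sl h Lam k
  let T : Set (List (Dir d)) := {l | m.length ≤ l.length ∧ l.take m.length = m ∧
    (∀ i < l.length, Lt ℓ l i < lev ℓ (endPt l)) ∧
    ∀ j, m.length ≤ j → j < l.length → ¬RegenAt ℓ l j}
  let E : T → Set (Walk d) := fun l => cyl l.1 ∩ shift l.1.length ⁻¹' Dp ℓ
  have hreg : ∀ l : T, ∀ s ∈ E l, RegenTime ℓ s l.1.length := by
    intro l s hs
    refine ⟨fun i hi => ?_, fun i hi => ?_⟩
    · rw [pos_of_mem_cyl hs.1 hi.le, pos_of_mem_cyl hs.1 le_rfl, List.take_length]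
      exact l.2.2.2.1 i hi
    · obtain ⟨j, rfl⟩ := Nat.exists_eq_add_of_le hi
      rw [lev_pos_shift]
      linarith [hs.2.1 j]
  have hdisj : Pairwise (fun l l' : T => Disjoint (E l) (E l')) := by
    intro l l' hne
    refine Set.disjoint_left.2 fun s hs hs' => hne ?_
    have key : ∀ u v : T, s ∈ E u → s ∈ E v → ¬u.1.length < v.1.length := by
      intro u v hu hv hlt
      refine v.2.2.2.2 u.1.length u.2.1 hlt ?_
      have h1 := regenAt_pre (n := v.1.length) hlt.le (hreg u s hu)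
      rwa [(mem_cyl_iff _ _).1 hv.1] at h1
    have hl : l.1.length = l'.1.length :=
      le_antisymm (not_lt.1 (key l' l hs' hs)) (not_lt.1 (key l l' hs hs'))
    exact Subtype.ext (((mem_cyl_iff _ _).1 hs.1).symm.trans (hl ▸ (mem_cyl_iff _ _).1 hs'.1))
  have hW : ∀ l : T, annealed μ (E l) = W μ l.1 * p := fun l =>
    annealed_fresh _ (measurableSet_Dp ℓ) fun s hs n => fresh_of_last l.2.2.2.1 hs.1 n
  have hsum : (∑' l : T, W μ l.1) * p ≤ W μ m := by
    rw [← ENNReal.tsum_mul_right]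
    simp only [← hW]
    rw [← measure_iUnion hdisj fun l =>
      (measurableSet_cyl _).inter (measurable_shift _ (measurableSet_Dp ℓ)), ← annealed_cyl]
    exact measure_mono (Set.iUnion_subset fun l s hs => cyl_subset_of_take l.2.2.1 hs.1)
  have hp1 : p ≠ ⊤ := measure_ne_top _ _
  calc _ ≤ annealed μ (⋃ l : T, cyl l.1 ∩ shift l.1.length ⁻¹'
        (Dp ℓ ∩ Giant ℓ ψ sl h Lam k (c - (lev ℓ (endPt l.1)).toNat))) := by
        refine measure_mono ?_
        rintro s ⟨⟨hcm, hA⟩, a, ha, hr, hfirst, hac, hG⟩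
        have hD : shift a s ∈ Dp ℓ := by
          refine ⟨fun n => ?_, (tendsto_shift_iff s a).2 hA⟩
          have := hr.2 (a + n) (by omega)
          rw [lev_pos_shift] at this
          linarith
        refine Set.mem_iUnion.2 ⟨⟨pre s a, ⟨by simpa using ha, take_of_cyl hcm ha, fun i hi => ?_,
          fun j hj hj' hreg' => ?_⟩⟩, (mem_cyl_iff _ _).2 (by simp), ?_⟩
        · rw [length_pre] at hi
          rw [Lt_pre s hi.le, endPt_pre]
          exact hr.1 i hi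
        · rw [length_pre] at hj'
          refine hfirst j hj hj' ⟨fun i hi => ?_, fun i hi => ?_⟩
          · have := hreg'.1 i hi
            rwa [Lt_pre s (hi.trans hj').le, Lt_pre s hj'.le] at this
          · rcases le_total i a with hia | hia
            · have := hreg'.2 i hi (by simpa using hia)
              rwa [Lt_pre s hia, Lt_pre s hj'.le] at this
            · exact (hr.1 j hj').le.trans (hr.2 i hia)
        · simp only [Set.mem_preimage, length_pre, endPt_pre]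
          exact ⟨hD, hG⟩
    _ ≤ ∑' l : T, W μ l.1 * Φ := by
        refine (measure_iUnion_le _).trans (ENNReal.tsum_le_tsum fun l => ?_)
        rw [annealed_fresh _ ((measurableSet_Dp ℓ).inter (measurableSet_giant _))
          fun s hs n => fresh_of_last l.2.2.2.1 hs.1.1 n]
        exact mul_le_mul' le_rfl
          (le_iSup (fun c : ℕ => annealed μ (Dp ℓ ∩ Giant ℓ ψ sl h Lam k c)) _)
    _ = (∑' l : T, W μ l.1) * p * (Φ / p) := by
        rw [ENNReal.tsum_mul_right, mul_assoc, ENNReal.mul_div_cancel hp hp1]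
    _ ≤ _ := mul_le_mul' hsum le_rfl

/-- Geometric decay along the attempts. -/
theorem wit_le (hψ : ∀ e, |ψ (dirVec e)| ≤ 1) (hsl : 1 ≤ sl) (hp : annealed μ (Dp ℓ) ≠ 0)
    {g : ℝ≥0∞} (hg : g ≤ annealed μ (CGood ℓ ψ sl h)) (c : ℕ) :
    ∀ j i (m : List (Dir d)), i + j = k → QR ℓ ψ sl h m →
      annealed μ (Wit ℓ ψ sl h Lam k c m i ∩ Ap ℓ) ≤
        W μ m * ((1 - g) ^ j +
          (∑ q ∈ Finset.range j, (1 - g) ^ q) * (giantSup μ ℓ ψ sl h Lam k / annealed μ (Dp ℓ))) := by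
  intro j
  induction j with
  | zero =>
    intro i m _ _
    simp only [pow_zero, Finset.range_zero, Finset.sum_empty, zero_mul, add_zero, mul_one]
    rw [← annealed_cyl]
    exact measure_mono fun s hs => hs.1.1
  | succ j ih =>
    intro i m hij hm
    set R := giantSup μ ℓ ψ sl h Lam k / annealed μ (Dp ℓ)
    set B := (1 - g) ^ j + (∑ q ∈ Finset.range j, (1 - g) ^ q) * R
    have cover : Wit ℓ ψ sl h Lam k c m i ∩ Ap ℓ ⊆
        (cyl m ∩ Ap ℓ ∩ {s | ∃ a, m.length ≤ a ∧ RegenTime ℓ s a ∧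
          (∀ j, m.length ≤ j → j < a → ¬RegenTime ℓ s j) ∧ lev ℓ (pos s a) ≤ c ∧
          shift a s ∈ Giant ℓ ψ sl h Lam k (c - (lev ℓ (pos s a)).toNat)}) ∪
        ⋃ l : FailFrom ℓ ψ sl h m, ⋃ l' : NextQR ℓ ψ sl h l.1,
          Wit ℓ ψ sl h Lam k c l'.1 (i + 1) ∩ Ap ℓ := by
      rintro s ⟨hs, hA⟩
      rcases wit_step hψ (show i + 1 ≤ k by omega) hs with h1 | ⟨r, t, hr, ht, hw⟩
      · exact Or.inl ⟨⟨hs.1, hA⟩, h1⟩
      · exact Or.inr (Set.mem_iUnion.2 ⟨⟨_, hr⟩, Set.mem_iUnion.2 ⟨⟨_, ht⟩, hw, hA⟩⟩)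
    refine (measure_mono cover).trans ((measure_union_le _ _).trans ?_)
    calc _ ≤ W μ m * R + ∑' l : FailFrom ℓ ψ sl h m, ∑' l' : NextQR ℓ ψ sl h l.1,
          annealed μ (Wit ℓ ψ sl h Lam k c l'.1 (i + 1) ∩ Ap ℓ) :=
          add_le_add (restart_le hp m c) ((measure_iUnion_le _).trans
            (ENNReal.tsum_le_tsum fun l => measure_iUnion_le _))
      _ ≤ W μ m * R + ∑' l : FailFrom ℓ ψ sl h m, ∑' l' : NextQR ℓ ψ sl h l.1, W μ l'.1 * B := by
          refine add_le_add le_rfl (ENNReal.tsum_le_tsum fun l => ENNReal.tsum_le_tsum fun l' => ?_)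
          exact ih (i + 1) l'.1 (by omega) l'.2.2.2.1
      _ ≤ W μ m * R + ∑' l : FailFrom ℓ ψ sl h m, W μ l.1 * B := by
          refine add_le_add le_rfl (ENNReal.tsum_le_tsum fun l => ?_)
          rw [ENNReal.tsum_mul_right]
          refine mul_le_mul' ?_ le_rfl
          rw [← annealed_cyl]
          exact tsum_W_le (nextQR_unique l.1) fun l' hl' => cyl_subset_of_take hl'.2.1
      _ ≤ W μ m * R + (1 - g) * W μ m * B := by
          rw [ENNReal.tsum_mul_right]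
          gcongr
          exact (sum_failFrom_le hsl hm).trans (mul_le_mul' (tsub_le_tsub_left hg 1) le_rfl)
      _ = _ := by
          rw [geom_sum_succ (x := 1 - g) (n := j), pow_succ]
          simp only [B]
          ring

/-- Bound for the giant blocks around a level through the triggering paths. -/
theorem giant_le (hψ : ∀ e, |ψ (dirVec e)| ≤ 1) (hsl : 1 ≤ sl) (hp : annealed μ (Dp ℓ) ≠ 0)
    {g : ℝ≥0∞} (hg : g ≤ annealed μ (CGood ℓ ψ sl h)) (c : ℕ) :
    g * annealed μ (Dp ℓ ∩ Giant ℓ ψ sl h Lam k c) ≤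
      annealed μ (Dp ℓ ∩ {s | ∃ t, Trig ℓ ψ sl h Lam c (pre s t)}) *
        ((1 - g) ^ k + (∑ q ∈ Finset.range k, (1 - g) ^ q) *
          (giantSup μ ℓ ψ sl h Lam k / annealed μ (Dp ℓ))) := by
  classical
  set B := (1 - g) ^ k + (∑ q ∈ Finset.range k, (1 - g) ^ q) *
    (giantSup μ ℓ ψ sl h Lam k / annealed μ (Dp ℓ))
  let T : Set (List (Dir d)) := {l | Trig ℓ ψ sl h Lam c l ∧
    ∀ r < l.length, ¬Trig ℓ ψ sl h Lam c (l.take r)}
  have hT : ∀ s : Walk d, ∀ a b, pre s a ∈ T → pre s b ∈ T → a = b := by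
    intro s a b ha hb
    by_contra hne
    wlog hab : a < b generalizing a b
    · exact this b a hb ha (Ne.symm hne) (by omega)
    exact hb.2 a (by simpa using hab) (by rw [pre_take' s hab.le]; exact ha.1)
  have cover : Dp ℓ ∩ Giant ℓ ψ sl h Lam k c ⊆
      ⋃ l : T, Wit ℓ ψ sl h Lam k c l.1 0 ∩ Ap ℓ := by
    rintro s ⟨hD, a, b, n, hC, han, hnb, hbig⟩
    obtain ⟨ra, rb, hab, hno, hac, hcb, hH⟩ := hC
    set H := lev ℓ (pos s b) - lev ℓ (pos s a)
    have h0 : (Lam : ℤ) * H ≤ ((Lam : ℤ) + k * adv ℓ sl) * H :=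
      mul_le_mul_of_nonneg_right (le_add_of_nonneg_right (by positivity)) (by omega)
    have hex : ∃ u, a ≤ u ∧ u ≤ b ∧ (Lam : ℤ) * H < wt ℓ ψ sl (pos s u) - wt ℓ ψ sl (pos s a) :=
      ⟨n, han, hnb, h0.trans_lt hbig⟩
    obtain ⟨hau, hub, hucross⟩ := Nat.find_spec hex
    set τ := Nat.find hex
    have hτlow : ∀ u, a ≤ u → u < τ →
        wt ℓ ψ sl (pos s u) - wt ℓ ψ sl (pos s a) ≤ (Lam : ℤ) * H := fun u hu hu' => by
      have h2 := Nat.find_min hex hu'
      push Not at h2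
      exact h2 hu (hu'.le.trans hub)
    have hin : ∀ u ≤ b, lev ℓ (pos s u) ≤ lev ℓ (pos s b) := fun u hu => by
      rcases hu.lt_or_eq with h3 | h3
      · exact (rb.1 u h3).le
      · rw [h3]
    have hH0 : ((H.toNat : ℕ) : ℤ) = H := Int.toNat_of_nonneg (by omega)
    have htrig : Trig ℓ ψ sl h Lam c (pre s τ) := by
      refine ⟨qr_crossing (θ := wt ℓ ψ sl (pos s a) + (Lam : ℤ) * H)
        ⟨ra, rb, hab, hno, hac, hcb, hH⟩ hau hub (by linarith)
        (fun u hu hu' => by have := hτlow u hu hu'; linarith), fun i hi => ?_, H.toNat, by omega,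
        by omega, fun i hi => ?_, a, by simpa using hau, ⟨a, le_rfl, ?_⟩, ?_⟩
      · rw [length_pre] at hi; rw [Lt_pre s hi]; exact hD.1 i
      · rw [length_pre] at hi; rw [Lt_pre s hi]
        have := hin i (hi.trans hub)
        omega
      · rw [Lt_pre s hau]; omega
      · rw [endPt_pre, endPt_take_pre s hau, hH0]; exact hucross
    have hex2 : ∃ t, Trig ℓ ψ sl h Lam c (pre s t) := ⟨τ, htrig⟩
    refine Set.mem_iUnion.2 ⟨⟨pre s (Nat.find hex2), Nat.find_spec hex2, fun r hr hr' => ?_⟩,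
      ⟨(mem_cyl_iff _ _).2 (by simp), a, b, n, ⟨ra, rb, hab, hno, hac, hcb, hH⟩, han, hnb, hbig,
        fun u hu _ hu' => ?_⟩, hD.2⟩
    · rw [length_pre] at hr
      rw [pre_take' s hr.le] at hr'
      exact Nat.find_min hex2 hr hr'
    · have : Nat.find hex2 ≤ τ := Nat.find_le htrig
      simpa using hτlow u hu (lt_of_lt_of_le (by simpa using hu') this)
  have hpart : ∀ l : T, g * W μ l.1 ≤ annealed μ (cyl l.1 ∩ shift l.1.length ⁻¹' CGood ℓ ψ sl h) :=
    fun l => by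
    rw [annealed_fresh _ (measurableSet_good ℓ ψ sl h) fun s hs n => good_fresh hsl l.2.1.1 hs n,
      mul_comm]
    exact mul_le_mul' le_rfl hg
  have hsum : g * ∑' l : T, W μ l.1 ≤
      annealed μ (Dp ℓ ∩ {s | ∃ t, Trig ℓ ψ sl h Lam c (pre s t)}) := by
    rw [← ENNReal.tsum_mul_left]
    refine (ENNReal.tsum_le_tsum hpart).trans ?_
    rw [← measure_iUnion (fun l l' hne => ((cyl_pairwise_disjoint hT hne).mono
      Set.inter_subset_left Set.inter_subset_left)) fun l => (measurableSet_cyl _).inter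
        (measurable_shift _ (measurableSet_good ℓ ψ sl h))]
    refine measure_mono (Set.iUnion_subset fun l s hs => ?_)
    obtain ⟨hc, hG⟩ := hs
    refine ⟨⟨fun n => ?_, (tendsto_shift_iff s _).1 hG.1.2⟩, l.1.length, ?_⟩
    · rcases le_total n l.1.length with h1 | h1
      · rw [pos_of_mem_cyl hc h1]; exact l.2.1.2.1 n h1
      · obtain ⟨q, rfl⟩ := Nat.exists_eq_add_of_le h1
        rw [lev_pos_shift, pos_of_mem_cyl hc le_rfl]
        have := l.2.1.2.1 l.1.length le_rfl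
        simp only [Lt] at this
        linarith [hG.1.1 q]
    · rw [(mem_cyl_iff _ _).1 hc]; exact l.2.1
  calc g * annealed μ (Dp ℓ ∩ Giant ℓ ψ sl h Lam k c)
      ≤ g * ∑' l : T, W μ l.1 * B := by
        refine mul_le_mul' le_rfl ((measure_mono cover).trans ((measure_iUnion_le _).trans
          (ENNReal.tsum_le_tsum fun l => ?_)))
        exact wit_le hψ hsl hp hg c k 0 l.1 (by omega) l.2.1.1
    _ = (g * ∑' l : T, W μ l.1) * B := by rw [ENNReal.tsum_mul_right, mul_assoc]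
    _ ≤ _ := mul_le_mul' hsum le_rfl

end Vale.Agent.P147
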