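import Vale.Agent.P147.Sides

/-!
Maximal inequality for partial sums of nonnegative i.i.d. variables, and exchangeability.
-/

noncomputable section

namespace Vale.Agent.P147

open MeasureTheory ProbabilityTheory
open scoped ENNReal

set_option linter.unusedSectionVars false

variable {α : Type*} [MeasurableSpace α] [MeasurableSingletonClass α] [Countable α]

/-- Some window starting at `i` of length at most `N` has average above `lam`. -/
def Heavy (lam N : ℕ) (x : ℕ → ℕ) (i : ℕ) : Prop :=
  ∃ j, 1 ≤ j ∧ j ≤ N ∧ lam * j < ∑ t ∈ Finset.range j, x (i + t)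

open scoped Classical in
lemma heavy_count (lam N : ℕ) :
    ∀ (L : ℕ) (x : ℕ → ℕ), lam * ((Finset.range L).filter (Heavy lam N x)).card ≤
      ∑ t ∈ Finset.range (L + N), x t := by
  intro L
  induction L using Nat.strong_induction_on with
  | _ L ih =>
    intro x
    rcases Nat.eq_zero_or_pos L with rfl | hL
    · simp
    by_cases h0 : Heavy lam N x 0
    · obtain ⟨j, hj1, hjN, hj⟩ := h0
      simp only [zero_add] at hj
      rcases le_or_gt L j with hLj | hLj
      · calc lam * ((Finset.range L).filter (Heavy lam N x)).card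
            ≤ lam * j := Nat.mul_le_mul_left _
              ((Finset.card_filter_le _ _).trans ((Finset.card_range L).le.trans hLj))
          _ ≤ ∑ t ∈ Finset.range j, x t := hj.le
          _ ≤ _ := Finset.sum_le_sum_of_subset (Finset.range_mono (by omega))
      have h1 := ih (L - j) (by omega) (fun t => x (j + t))
      have hsub : (Finset.range L).filter (Heavy lam N x) ⊆ Finset.range j ∪
          ((Finset.range (L - j)).filter (Heavy lam N fun t => x (j + t))).image (j + ·) := by
        intro i hi
        simp only [Finset.mem_filter, Finset.mem_range] at hi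
        rcases lt_or_ge i j with h | h
        · exact Finset.mem_union_left _ (Finset.mem_range.2 h)
        · refine Finset.mem_union_right _ (Finset.mem_image.2 ⟨i - j, ?_, by omega⟩)
          simp only [Finset.mem_filter, Finset.mem_range]
          refine ⟨by omega, ?_⟩
          obtain ⟨k, hk1, hkN, hk⟩ := hi.2
          refine ⟨k, hk1, hkN, hk.trans_eq (Finset.sum_congr rfl fun t _ => ?_)⟩
          congr 1; omega
      have hc := (Finset.card_le_card hsub).trans
        ((Finset.card_union_le _ _).trans (add_le_add (le_of_eq (Finset.card_range j))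
          Finset.card_image_le))
      have hs : ∑ t ∈ Finset.range j, x t + ∑ t ∈ Finset.range (L - j + N), x (j + t) ≤
          ∑ t ∈ Finset.range (L + N), x t := by
        rw [← Finset.sum_range_add]
        exact Finset.sum_le_sum_of_subset (Finset.range_mono (by omega))
      calc lam * ((Finset.range L).filter (Heavy lam N x)).card
          ≤ lam * (j + ((Finset.range (L - j)).filter (Heavy lam N fun t => x (j + t))).card) :=
            Nat.mul_le_mul_left _ hc
        _ ≤ _ := by rw [mul_add]; omega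
    · obtain ⟨L', rfl⟩ : ∃ L', L = L' + 1 := ⟨L - 1, by omega⟩
      have h1 := ih L' (by omega) (fun t => x (t + 1))
      have hsub : (Finset.range (L' + 1)).filter (Heavy lam N x) ⊆
          ((Finset.range L').filter (Heavy lam N fun t => x (t + 1))).image (· + 1) := by
        intro i hi
        simp only [Finset.mem_filter, Finset.mem_range] at hi
        have hi0 : i ≠ 0 := fun h => h0 (h ▸ hi.2)
        refine Finset.mem_image.2 ⟨i - 1, ?_, by omega⟩
        simp only [Finset.mem_filter, Finset.mem_range]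
        refine ⟨by omega, ?_⟩
        obtain ⟨k, hk1, hkN, hk⟩ := hi.2
        refine ⟨k, hk1, hkN, hk.trans_eq (Finset.sum_congr rfl fun t _ => ?_)⟩
        congr 1; omega
      have hc := (Finset.card_le_card hsub).trans Finset.card_image_le
      have hs : ∑ t ∈ Finset.range (L' + N), x (t + 1) ≤
          ∑ t ∈ Finset.range (L' + 1 + N), x t := by
        rw [show L' + 1 + N = (L' + N) + 1 by omega, Finset.sum_range_succ' x]
        exact Nat.le_add_right _ _
      exact (Nat.mul_le_mul_left _ hc).trans (h1.trans hs)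

/-- The law of a sequence is shift invariant. -/
lemma seqLaw_preimage_shift (p : PMF α) (k : ℕ) {E : Set (ℕ → α)} (hE : MeasurableSet E) :
    seqLaw p ((fun ω i => ω (k + i)) ⁻¹' E) = seqLaw p E := by
  have hm : Measurable fun (ω : ℕ → α) i => ω (k + i) := by fun_prop
  conv_lhs => rw [← seqLaw_map_glue p k]
  rw [Measure.map_apply (measurable_glue k) (hm hE)]
  have : glue k ⁻¹' ((fun (ω : ℕ → α) i => ω (k + i)) ⁻¹' E) = Set.univ ×ˢ E := by
    ext q; simp
  rw [this, Measure.prod_prod, measure_univ, one_mul]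

/-- Some initial average over at most `N` terms exceeds `lam`. -/
def HeavySeq (f : α → ℕ) (lam N : ℕ) : Set (ℕ → α) :=
  {ω | Heavy lam N (fun t => f (ω t)) 0}

lemma heavySeq_dep (f : α → ℕ) (lam N : ℕ) {ω η : ℕ → α} (h : head N ω = head N η)
    (hω : ω ∈ HeavySeq f lam N) : η ∈ HeavySeq f lam N := by
  obtain ⟨j, hj1, hjN, hj⟩ := hω
  refine ⟨j, hj1, hjN, hj.trans_eq (Finset.sum_congr rfl fun t ht => ?_)⟩
  have := congrFun h ⟨t, (Finset.mem_range.1 ht).trans_le hjN⟩
  simp only [head] at this
  simp [this]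

lemma measurableSet_heavySeq (f : α → ℕ) (lam N : ℕ) : MeasurableSet (HeavySeq f lam N) :=
  measurableSet_of_head N fun _ _ h => heavySeq_dep f lam N h

/-- Maximal inequality. -/
theorem heavySeq_le (p : PMF α) (f : α → ℕ) (lam N : ℕ) :
    (lam : ℝ≥0∞) * seqLaw p (HeavySeq f lam N) ≤ ∑' a, p a * (f a : ℝ≥0∞) := by
  classical
  set m := ∑' a, p a * (f a : ℝ≥0∞) with hm
  set P := seqLaw p (HeavySeq f lam N) with hP
  rcases eq_or_ne m ⊤ with h | hmt
  · simp [h]
  have key : ∀ L : ℕ, (lam : ℝ≥0∞) * P * L ≤ ((L + N : ℕ) : ℝ≥0∞) * m := by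
    intro L
    have hshift : ∀ i, seqLaw p ((fun (ω : ℕ → α) t => ω (i + t)) ⁻¹' HeavySeq f lam N) = P :=
      fun i => seqLaw_preimage_shift p i (measurableSet_heavySeq f lam N)
    have hmeas : ∀ i, MeasurableSet ((fun (ω : ℕ → α) t => ω (i + t)) ⁻¹' HeavySeq f lam N) :=
      fun i => (by fun_prop : Measurable fun (ω : ℕ → α) t => ω (i + t))
        (measurableSet_heavySeq f lam N)
    have e : (L : ℝ≥0∞) * P = ∫⁻ ω, ∑ i ∈ Finset.range L,
        ((fun (ω : ℕ → α) t => ω (i + t)) ⁻¹' HeavySeq f lam N).indicator 1 ω ∂seqLaw p := by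
      rw [lintegral_finsetSum _ fun i _ => measurable_one.indicator (hmeas i)]
      simp only [lintegral_indicator_one (hmeas _), hshift]
      simp
    rw [← lintegral_psum p f (L + N), mul_assoc, mul_comm P, e, ← lintegral_const_mul' _ _ (by simp)]
    refine lintegral_mono fun ω => ?_
    have h2 : ∀ i, ((fun (ω : ℕ → α) t => ω (i + t)) ⁻¹' HeavySeq f lam N).indicator
        (1 : (ℕ → α) → ℝ≥0∞) ω = if Heavy lam N (fun t => f (ω t)) i then 1 else 0 := by
      intro i
      simp only [Set.indicator_apply, Set.mem_preimage, HeavySeq, Set.mem_ofPred_eq, Pi.one_apply,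
        Heavy, zero_add]
    simp only [h2, Finset.sum_boole]
    exact_mod_cast heavy_count lam N L fun t => f (ω t)
  refine ENNReal.le_of_forall_pos_le_add fun ε hε _ => ?_
  obtain ⟨n, hn⟩ := ENNReal.exists_nat_gt
    (ENNReal.div_ne_top (ENNReal.mul_ne_top (ENNReal.natCast_ne_top N) hmt)
      (ENNReal.coe_ne_zero.2 hε.ne'))
  have h1 := key (n + 1)
  have hn0 : ((n + 1 : ℕ) : ℝ≥0∞) ≠ 0 := by simp
  rw [← ENNReal.mul_le_mul_iff_left hn0 (ENNReal.natCast_ne_top _)]
  refine h1.trans ?_
  rw [Nat.cast_add, add_mul, add_mul, mul_comm m]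
  refine add_le_add le_rfl ?_
  rw [ENNReal.div_lt_iff (Or.inl (ENNReal.coe_ne_zero.2 hε.ne')) (Or.inl ENNReal.coe_ne_top)] at hn
  rw [mul_comm (ε : ℝ≥0∞)]
  exact hn.le.trans (mul_le_mul' (Nat.cast_le.2 n.le_succ) le_rfl)

/-- The law of the first `k` terms is invariant under reversal. -/
theorem seqLaw_head_rev (p : PMF α) (k : ℕ) (S : Set (Fin k → α)) :
    seqLaw p {ω | head k ω ∈ S} = seqLaw p {ω | head k ω ∘ Fin.rev ∈ S} := by
  have h : {ω : ℕ → α | head k ω ∘ Fin.rev ∈ S} =
      {ω | head k ω ∈ (fun g : Fin k → α => g ∘ Fin.rev) ⁻¹' S} := rfl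
  rw [h, seqLaw_head_mem, seqLaw_head_mem]
  let r : (Fin k → α) ≃ (Fin k → α) :=
    ⟨fun g => g ∘ Fin.rev, fun g => g ∘ Fin.rev, fun g => by funext i; simp,
      fun g => by funext i; simp⟩
  rw [← r.tsum_eq]
  refine tsum_congr fun g => ?_
  have e : ∏ i, p (r g i) = ∏ i, p (g i) :=
    Fintype.prod_equiv Fin.revPerm _ _ fun i => rfl
  show S.indicator (fun g => ∏ i, p (g i)) (r g) = _
  by_cases hS : r g ∈ S
  · rw [Set.indicator_of_mem hS, Set.indicator_of_mem (show g ∈ _ from hS), e]
  · rw [Set.indicator_of_notMem hS, Set.indicator_of_notMem (show g ∉ _ from hS)]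

end Vale.Agent.P147
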