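import Vale.Agent.P147.Main
import Vale.Agent.P147.Dir.Scan

/-!
Staying in a cone up to a horizon of levels, and the prefixes that reveal a failure.
-/

noncomputable section

namespace Vale.Agent.P147

open MeasureTheory ProbabilityTheory Filter
open scoped ENNReal

set_option linter.unusedSectionVars false

variable {d : ℕ} {μ : Measure (Row d)} {ℓ : Fin d → ℤ} {ψ : (Fin d → ℤ) →+ ℤ} {sl h : ℕ}

lemma head_succ_cat (ω : ℕ → Blk ℓ) (k : ℕ) :
    cat (head (k + 1) ω) = cat (head k ω) ++ (ω k).1 := by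
  simp only [cat, head, List.ofFn_succ_last, List.flatten_append, Fin.val_castSucc, Fin.val_last]
  simp

lemma start_mono (ω : ℕ → Blk ℓ) {i j : ℕ} (hij : i ≤ j) :
    (cat (head i ω)).length ≤ (cat (head j ω)).length := by
  induction j, hij using Nat.le_induction with
  | base => rfl
  | succ j _ ih => rw [head_succ_cat, List.length_append]; omega

lemma cat_head_take (ω : ℕ → Blk ℓ) {i j : ℕ} (hij : i ≤ j) :
    ∃ r, cat (head j ω) = cat (head i ω) ++ r := by
  induction j, hij using Nat.le_induction with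
  | base => exact ⟨[], by simp⟩
  | succ j _ ih =>
    obtain ⟨r, hr⟩ := ih
    exact ⟨r ++ (ω j).1, by rw [head_succ_cat, hr, List.append_assoc]⟩

/-- Location of a time among the blocks. -/
lemma exists_block_at (ω : ℕ → Blk ℓ) {k n : ℕ} (hn : n < (cat (head k ω)).length) :
    ∃ J < k, ∃ m < (ω J).1.length, n = (cat (head J ω)).length + m := by
  induction k with
  | zero => simp [cat_zero] at hn
  | succ k ih =>
    rcases lt_or_ge n (cat (head k ω)).length with h | h
    · obtain ⟨J, hJ, m, hm, he⟩ := ih h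
      exact ⟨J, by omega, m, hm, he⟩
    · refine ⟨k, by omega, n - (cat (head k ω)).length, ?_, by omega⟩
      rw [head_succ_cat, List.length_append] at hn
      omega

lemma endPt_take_block (ω : ℕ → Blk ℓ) {k J m : ℕ} (hJ : J < k) (hm : m ≤ (ω J).1.length) :
    endPt ((cat (head k ω)).take ((cat (head J ω)).length + m)) =
      endPt (cat (head J ω)) + endPt ((ω J).1.take m) := by
  obtain ⟨r, hr⟩ := cat_head_take ω (show J + 1 ≤ k by omega)
  rw [hr, head_succ_cat, List.append_assoc, List.take_length_add_append,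
    List.take_append_of_le_length hm, endPt_append]

lemma pos_block {ω : ℕ → Blk ℓ} {s : Walk d} {k J m : ℕ} (hs : s ∈ cyl (cat (head k ω)))
    (hJ : J < k) (hm : m ≤ (ω J).1.length) :
    pos s ((cat (head J ω)).length + m) =
      endPt (cat (head J ω)) + endPt ((ω J).1.take m) := by
  have h1 := start_mono ω (show J + 1 ≤ k by omega)
  rw [head_succ_cat, List.length_append] at h1
  rw [pos_of_mem_cyl hs (by omega), endPt_take_block ω hJ hm]

lemma regen_start {ω : ℕ → Blk ℓ} {s : Walk d} {k : ℕ} (hs : s ∈ blkEvent (head k ω)) {J : ℕ}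
    (hJ : J ≤ k) : RegenTime ℓ s (cat (head J ω)).length := by
  refine blkEvent_regen (head J ω) ?_
  induction k, hJ using Nat.le_induction with
  | base => exact hs
  | succ k _ ih =>
    refine ih ?_
    obtain ⟨hc, hD⟩ := hs
    rw [head_succ_cat, cyl_append] at hc
    refine ⟨hc.1, ?_⟩
    have h1 : shift (cat (head k ω)).length s ∈
        blkEvent (ℓ := ℓ) (fun _ : Fin 1 => ω k) := by
      refine ⟨by simpa [cat] using hc.2, ?_⟩
      simp only [Set.mem_preimage] at hD ⊢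
      have e1 : (cat (fun _ : Fin 1 => ω k)).length = (ω k).1.length := by simp [cat]
      convert hD using 1
      funext i; simp only [shift, e1, head_succ_cat, List.length_append, add_assoc]
    exact blkEvent_subset_Dp _ h1

variable [IsProbabilityMeasure μ]

lemma annealed_Dp_sdiff_blocks (hp : annealed μ (Dp ℓ) ≠ 0) (k : ℕ) :
    annealed μ (Dp ℓ \ ⋃ bs : Fin k → Blk ℓ, blkEvent bs) = 0 := by
  set U := ⋃ bs : Fin k → Blk ℓ, blkEvent bs with hU
  have hUm : MeasurableSet U := MeasurableSet.iUnion fun bs => measurableSet_blkEvent bs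
  have hUp : annealed μ U = annealed μ (Dp ℓ) := by
    rw [hU, measure_iUnion (blkEvent_disjoint k) measurableSet_blkEvent]
    simp only [annealed_blkEvent]
    rw [ENNReal.tsum_mul_right]
    have := seqLaw_head_mem_one (blkPMF μ hp) k
    simp only [blkPMF_apply] at this
    rw [this, one_mul]
  rw [measure_sdiff (Set.iUnion_subset fun bs => blkEvent_subset_Dp bs) hUm.nullMeasurableSet
    (measure_ne_top _ _), hUp, tsub_self]

/-- An event on `Dp` controlled through the first `k` blocks. -/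
theorem Dp_inter_le (hp : annealed μ (Dp ℓ) ≠ 0) {k : ℕ} {E : Set (Walk d)}
    {S : Set (ℕ → Blk ℓ)}
    (hdep : ∀ ω η, head k ω = head k η → ω ∈ S → η ∈ S)
    (hS : ∀ ω s, s ∈ blkEvent (head k ω) → s ∈ E → ω ∈ S) :
    annealed μ (Dp ℓ ∩ E) ≤ annealed μ (Dp ℓ) * seqLaw (blkPMF μ hp) S := by
  classical
  set T : Set (Fin k → Blk ℓ) := head k '' S
  have hST : S = {ω | head k ω ∈ T} := by
    ext ω
    exact ⟨fun h => ⟨ω, h, rfl⟩, fun ⟨η, hη, he⟩ => hdep η ω he hη⟩
  obtain ⟨b0⟩ : Nonempty (Blk ℓ) := by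
    by_contra hc
    rw [not_nonempty_iff] at hc
    exact (blkPMF μ hp).support_nonempty.some |> hc.false
  have hsub : Dp ℓ ∩ E ⊆ (Dp ℓ \ ⋃ bs : Fin k → Blk ℓ, blkEvent bs) ∪
      ⋃ bs : T, blkEvent bs.1 := by
    rintro s ⟨hs, hsE⟩
    by_cases hu : s ∈ ⋃ bs : Fin k → Blk ℓ, blkEvent bs
    · obtain ⟨bs, hbs⟩ := Set.mem_iUnion.1 hu
      have he : head k (fun i => if h : i < k then bs ⟨i, h⟩ else b0) = bs := by
        funext i; simp [head]
      refine Or.inr (Set.mem_iUnion.2 ⟨⟨bs, _, hS _ s ?_ hsE, he⟩, hbs⟩)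
      rw [he]; exact hbs
    · exact Or.inl ⟨hs, hu⟩
  refine (measure_mono hsub).trans ((measure_union_le _ _).trans ?_)
  rw [annealed_Dp_sdiff_blocks hp, zero_add]
  refine (measure_iUnion_le _).trans ?_
  rw [hST, seqLaw_head_mem, ← ENNReal.tsum_mul_left,
    tsum_subtype T (fun bs => annealed μ (blkEvent bs))]
  refine ENNReal.tsum_le_tsum fun bs => ?_
  by_cases hb : bs ∈ T
  · rw [Set.indicator_of_mem hb, Set.indicator_of_mem hb, annealed_blkEvent, mul_comm]
    rfl
  · simp [Set.indicator_of_notMem hb]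

/-- No regeneration above level `h` up to time `n`. -/
def NoHigh (ℓ : Fin d → ℤ) (h : ℕ) (s : Walk d) (n : ℕ) : Prop :=
  ∀ i ≤ n, RegenTime ℓ s i → lev ℓ (pos s i) ≤ h

/-- Escaping and staying in a cone up to the horizon `h`. -/
def InCone (ℓ : Fin d → ℤ) (ψ : (Fin d → ℤ) →+ ℤ) (sl h : ℕ) : Set (Walk d) :=
  Dp ℓ ∩ {s | ∀ n, NoHigh ℓ h s n → |ψ (pos s n)| ≤ sl * (lev ℓ (pos s n) + 1)}

/-- A cone event which avoids every site of a quasi-record prefix. -/
def CGood (ℓ : Fin d → ℤ) (ψ : (Fin d → ℤ) →+ ℤ) (sl h : ℕ) : Set (Walk d) :=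
  Dp ℓ ∩ {s | (∀ n, 1 ≤ n → 1 ≤ lev ℓ (pos s n)) ∧
    ∀ n, NoHigh ℓ h s n → |ψ (pos s n)| ≤ sl * lev ℓ (pos s n) + 1}

/-- A finite path on which failure of `CGood` is revealed. -/
def CFail (ℓ : Fin d → ℤ) (ψ : (Fin d → ℤ) →+ ℤ) (sl h : ℕ) (l : List (Dir d)) : Prop :=
  ∃ n ≤ l.length, (1 ≤ n ∧ Lt ℓ l n ≤ 0) ∨
    ((sl : ℤ) * Lt ℓ l n + 1 < |ψ (endPt (l.take n))| ∧
      ∀ i ≤ n, (h : ℤ) < Lt ℓ l i → ¬RegenAt ℓ l i)

lemma regenAt_pre {s : Walk d} {i n : ℕ} (hi : i ≤ n) (h : RegenTime ℓ s i) :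
    RegenAt ℓ (pre s n) i := by
  refine ⟨fun j hj => ?_, fun j hj hj' => ?_⟩
  · rw [Lt_pre s (hj.le.trans hi), Lt_pre s hi]; exact h.1 j hj
  · rw [length_pre] at hj'
    rw [Lt_pre s hj', Lt_pre s hi]; exact h.2 j hj

lemma not_fail_of_good {s : Walk d} (hs : s ∈ CGood ℓ ψ sl h) (r : ℕ) :
    ¬CFail ℓ ψ sl h (pre s r) := by
  rintro ⟨n, hn, hc⟩
  rw [length_pre] at hn
  rw [Lt_pre s hn, endPt_take_pre s hn] at hc
  rcases hc with ⟨h1, h2⟩ | ⟨h1, h2⟩
  · have := hs.2.1 n h1; omega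
  · refine absurd (hs.2.2 n fun i hi hreg => ?_) (not_le.2 h1)
    by_contra hlt
    have := h2 i hi (by rw [Lt_pre s (hi.trans hn)]; omega)
    exact this (regenAt_pre (hi.trans hn) hreg)

lemma good_of_not_fail {s : Walk d} (hA : s ∈ Ap ℓ) (hF : ∀ r, ¬CFail ℓ ψ sl h (pre s r)) :
    s ∈ CGood ℓ ψ sl h := by
  classical
  have hpos : ∀ n, 1 ≤ n → 1 ≤ lev ℓ (pos s n) := by
    intro n hn
    by_contra hc
    refine hF n ⟨n, by simp, Or.inl ⟨hn, ?_⟩⟩
    rw [Lt_pre s le_rfl]; omega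
  refine ⟨⟨fun n => ?_, hA⟩, hpos, fun n hn => ?_⟩
  · rcases Nat.eq_zero_or_pos n with rfl | h0
    · simp [pos]
    · have := hpos n h0; omega
  by_contra hc
  rw [not_le] at hc
  -- witnesses against the candidates above the horizon
  have hw : ∀ i : ℕ, ∃ j, i ≤ n → (h : ℤ) < lev ℓ (pos s i) →
      (j < i ∧ lev ℓ (pos s i) ≤ lev ℓ (pos s j)) ∨ (i ≤ j ∧ lev ℓ (pos s j) < lev ℓ (pos s i)) := by
    intro i
    by_cases hh : i ≤ n ∧ (h : ℤ) < lev ℓ (pos s i)
    · by_contra hne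
      push Not at hne
      have := hn i hh.1 ⟨fun j hj => (hne j).2.2.1 hj, fun j hj => (hne j).2.2.2 hj⟩
      omega
    · exact ⟨0, fun h1 h2 => absurd ⟨h1, h2⟩ hh⟩
  choose j hj using hw
  set R := max n ((Finset.range (n + 1)).sup j)
  refine hF R ⟨n, by simp [R], Or.inr ⟨?_, fun i hi hlt hreg => ?_⟩⟩
  · rw [Lt_pre s (le_max_left _ _), endPt_take_pre s (le_max_left _ _)]; exact hc
  · have hiR : i ≤ R := hi.trans (le_max_left _ _)
    have hjR : j i ≤ R := (Finset.le_sup (f := j) (Finset.mem_range.2 (Nat.lt_succ_of_le hi))).trans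
      (le_max_right _ _)
    rw [Lt_pre s hiR] at hlt
    rcases hj i hi hlt with ⟨h1, h2⟩ | ⟨h1, h2⟩
    · have := hreg.1 (j i) h1
      rw [Lt_pre s hjR, Lt_pre s hiR] at this; omega
    · have := hreg.2 (j i) h1 (by simpa using hjR)
      rw [Lt_pre s hjR, Lt_pre s hiR] at this; omega

lemma measurableSet_regenTime (ℓ : Fin d → ℤ) (j : ℕ) :
    MeasurableSet {s : Walk d | RegenTime ℓ s j} := by
  have : {s : Walk d | RegenTime ℓ s j} =
      (⋂ i : ℕ, {s | i < j → lev ℓ (pos s i) < lev ℓ (pos s j)}) ∩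
      ⋂ i : ℕ, {s | j ≤ i → lev ℓ (pos s j) ≤ lev ℓ (pos s i)} := by
    ext s; simp [RegenTime]
  rw [this]
  refine (MeasurableSet.iInter fun i => ?_).inter (MeasurableSet.iInter fun i => ?_)
  · exact ((measurable_lev_pos ℓ i).prodMk (measurable_lev_pos ℓ j))
      (Set.to_countable {q : ℤ × ℤ | i < j → q.1 < q.2}).measurableSet
  · exact ((measurable_lev_pos ℓ j).prodMk (measurable_lev_pos ℓ i))
      (Set.to_countable {q : ℤ × ℤ | j ≤ i → q.1 ≤ q.2}).measurableSet

lemma measurableSet_good (ℓ : Fin d → ℤ) (ψ : (Fin d → ℤ) →+ ℤ) (sl h : ℕ) :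
    MeasurableSet (CGood ℓ ψ sl h) := by
  have e : CGood ℓ ψ sl h = Dp ℓ ∩ ((⋂ n : ℕ, {s | 1 ≤ n → 1 ≤ lev ℓ (pos s n)}) ∩
      ⋂ n : ℕ, ((⋂ i : ℕ, ({s : Walk d | RegenTime ℓ s i}ᶜ ∪
          {s | i ≤ n → lev ℓ (pos s i) ≤ h}))ᶜ ∪
        {s | |ψ (pos s n)| ≤ sl * lev ℓ (pos s n) + 1})) := by
    ext s
    simp only [CGood, NoHigh, Set.mem_inter_iff, Set.mem_ofPred_eq, Set.mem_iInter, Set.mem_union,
      Set.mem_compl_iff, ← imp_iff_not_or]
    constructor
    · rintro ⟨h1, h2, h3⟩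
      exact ⟨h1, h2, fun n hn => h3 n fun i hi hr => hn i hr hi⟩
    · rintro ⟨h1, h2, h3⟩
      exact ⟨h1, h2, fun n hn => h3 n fun i hr hi => hn i hi hr⟩
  rw [e]
  refine (measurableSet_Dp ℓ).inter ((MeasurableSet.iInter fun n => ?_).inter
    (MeasurableSet.iInter fun n => (MeasurableSet.iInter fun i => ?_).compl.union ?_))
  · exact measurable_lev_pos ℓ n (Set.to_countable {z : ℤ | 1 ≤ n → 1 ≤ z}).measurableSet
  · exact (measurableSet_regenTime ℓ i).compl.union
      (measurable_lev_pos ℓ i (Set.to_countable {z : ℤ | i ≤ n → z ≤ h}).measurableSet)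
  · exact measurable_pos n (Set.to_countable
      {x : Fin d → ℤ | |ψ x| ≤ sl * lev ℓ x + 1}).measurableSet

/-- Lateral extent of a block. -/
def lext (ψ : (Fin d → ℤ) →+ ℤ) (b : Blk ℓ) : ℕ :=
  (Finset.range (b.1.length + 1)).sup fun i => (ψ (endPt (b.1.take i))).natAbs

lemma abs_psi_le_ext (b : Blk ℓ) {i : ℕ} (hi : i ≤ b.1.length) :
    |ψ (endPt (b.1.take i))| ≤ lext ψ b := by
  rw [Int.abs_eq_natAbs]
  exact_mod_cast Finset.le_sup (f := fun i => (ψ (endPt (b.1.take i))).natAbs)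
    (Finset.mem_range.2 (Nat.lt_succ_of_le hi))

lemma lev_start_ge (ω : ℕ → Blk ℓ) (J : ℕ) : (J : ℤ) ≤ lev ℓ (endPt (cat (head J ω))) := by
  rw [endPt_cat_head]; exact lev_sum_ge ω J

lemma abs_psi_start_le (ω : ℕ → Blk ℓ) (J : ℕ) :
    |ψ (endPt (cat (head J ω)))| ≤ ∑ t ∈ Finset.range J, (lext ψ (ω t) : ℤ) := by
  rw [endPt_cat_head, map_sum]
  refine (Finset.abs_sum_le_sum_abs _ _).trans (Finset.sum_le_sum fun t _ => ?_)
  simpa using abs_psi_le_ext (ψ := ψ) (ω t) (le_refl (ω t).1.length)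

/-- The cone is left within the horizon with small probability when the truncated mean extent is
small. -/
theorem cone_exit_le (hp : annealed μ (Dp ℓ) ≠ 0) :
    (sl : ℝ≥0∞) * annealed μ (Dp ℓ \ InCone ℓ ψ sl h) ≤ annealed μ (Dp ℓ) *
      ∑' b, blkPMF μ hp b * ((min (lext ψ b) (sl * (h + 1) + 1) : ℕ) : ℝ≥0∞) := by
  set f := fun b : Blk ℓ => min (lext ψ b) (sl * (h + 1) + 1) with hf
  have key : annealed μ (Dp ℓ ∩ (InCone ℓ ψ sl h)ᶜ) ≤
      annealed μ (Dp ℓ) * seqLaw (blkPMF μ hp) (HeavySeq f sl (h + 1)) := by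
    refine Dp_inter_le hp (k := h + 1) (fun ω η he => heavySeq_dep f sl (h + 1) he) ?_
    intro ω s hs hbad
    have hD := blkEvent_subset_Dp _ hs
    obtain ⟨n, hn, hlt⟩ : ∃ n, NoHigh ℓ h s n ∧
        (sl : ℤ) * (lev ℓ (pos s n) + 1) < |ψ (pos s n)| := by
      by_contra hc
      push Not at hc
      exact hbad ⟨hD, hc⟩
    have hlen : n < (cat (head (h + 1) ω)).length := by
      by_contra hge
      rw [not_lt] at hge
      have h1 := hn _ hge (blkEvent_regen _ hs)
      rw [pos_of_mem_cyl hs.1 le_rfl, List.take_length] at h1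
      have := lev_start_ge ω (h + 1)
      push_cast at this
      omega
    obtain ⟨J, hJ, m, hm, rfl⟩ := exists_block_at ω hlen
    rw [pos_block hs.1 hJ hm.le, map_add, map_add] at hlt
    have h1 := lev_start_ge ω J
    have h2 : 0 ≤ Lt ℓ (ω J).1 m := (ω J).2.nonneg m hm.le
    simp only [Lt] at h2
    have h3 := abs_psi_start_le (ψ := ψ) ω J
    have h4 := abs_psi_le_ext (ψ := ψ) (ω J) hm.le
    refine ⟨J + 1, by omega, by omega, ?_⟩
    simp only [zero_add]
    have h5 : ((sl * (J + 1) : ℕ) : ℤ) < ∑ t ∈ Finset.range (J + 1), (lext ψ (ω t) : ℤ) := by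
      rw [Finset.sum_range_succ]
      push_cast
      calc (sl : ℤ) * (J + 1)
          ≤ sl * (lev ℓ (endPt (cat (head J ω))) + lev ℓ (endPt ((ω J).1.take m)) + 1) :=
            mul_le_mul_of_nonneg_left (by linarith) (by positivity)
        _ < _ := hlt
        _ ≤ _ := (abs_add_le _ _).trans (add_le_add h3 h4)
    have h6 : sl * (J + 1) < ∑ t ∈ Finset.range (J + 1), lext ψ (ω t) := by exact_mod_cast h5
    by_cases hbig : ∀ t ∈ Finset.range (J + 1), lext ψ (ω t) ≤ sl * (h + 1) + 1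
    · exact h6.trans_eq (Finset.sum_congr rfl fun t ht => (min_eq_left (hbig t ht)).symm)
    · push Not at hbig
      obtain ⟨t, ht, htb⟩ := hbig
      calc sl * (J + 1) < sl * (h + 1) + 1 :=
            Nat.lt_succ_of_le (Nat.mul_le_mul_left sl (by omega))
        _ = f (ω t) := (min_eq_right htb.le).symm
        _ ≤ _ := Finset.single_le_sum (f := fun t => f (ω t)) (fun _ _ => Nat.zero_le _) ht
  rw [← Set.sdiff_eq] at key
  calc (sl : ℝ≥0∞) * annealed μ (Dp ℓ \ InCone ℓ ψ sl h)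
      ≤ (sl : ℝ≥0∞) * (annealed μ (Dp ℓ) * seqLaw (blkPMF μ hp) (HeavySeq f sl (h + 1))) :=
        mul_le_mul' le_rfl key
    _ = annealed μ (Dp ℓ) * ((sl : ℝ≥0∞) * seqLaw (blkPMF μ hp) (HeavySeq f sl (h + 1))) := by
        ring
    _ ≤ _ := mul_le_mul' le_rfl (heavySeq_le _ f sl (h + 1))

/-- Lower bound for the probability of `CGood`. -/
theorem good_ge {e : Dir d} (he0 : 0 < lev ℓ (dirVec e)) (heψ : ψ (dirVec e) = 0) :
    W μ [e] * annealed μ (InCone ℓ ψ sl h) ≤ annealed μ (CGood ℓ ψ sl h) := by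
  classical
  have hm : MeasurableSet (InCone ℓ ψ sl h) := by
    have e' : InCone ℓ ψ sl h = Dp ℓ ∩ ⋂ n : ℕ,
        ((⋂ i : ℕ, ({s : Walk d | RegenTime ℓ s i}ᶜ ∪ {s | i ≤ n → lev ℓ (pos s i) ≤ h}))ᶜ ∪
          {s | |ψ (pos s n)| ≤ sl * (lev ℓ (pos s n) + 1)}) := by
      ext s
      simp only [InCone, NoHigh, Set.mem_inter_iff, Set.mem_ofPred_eq, Set.mem_iInter, Set.mem_union,
        Set.mem_compl_iff, ← imp_iff_not_or]
      exact and_congr_right fun _ => forall_congr' fun n =>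
        ⟨fun h1 h2 => h1 fun i hi hr => h2 i hr hi, fun h1 h2 => h1 fun i hr hi => h2 i hi hr⟩
    rw [e']
    refine (measurableSet_Dp ℓ).inter (MeasurableSet.iInter fun n =>
      (MeasurableSet.iInter fun i => ?_).compl.union ?_)
    · exact (measurableSet_regenTime ℓ i).compl.union
        (measurable_lev_pos ℓ i (Set.to_countable {z : ℤ | i ≤ n → z ≤ h}).measurableSet)
    · exact measurable_pos n (Set.to_countable
        {x : Fin d → ℤ | |ψ x| ≤ sl * (lev ℓ x + 1)}).measurableSet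
  have hfresh : ∀ s ∈ InCone ℓ ψ sl h, ∀ n, endPt [e] + pos s n ∉ srcs 0 [e] := by
    intro s hs n hc
    simp only [srcs, List.mem_singleton, endPt_cons, endPt_nil, add_zero] at hc
    have h1 := congrArg (lev ℓ) hc
    rw [map_add, map_zero] at h1
    have := hs.1.1 n
    omega
  rw [← annealed_fresh [e] hm hfresh]
  refine measure_mono ?_
  rintro s ⟨hc, hC⟩
  have hlen : [e].length = 1 := rfl
  simp only [Set.mem_preimage, hlen] at hC
  set a := lev ℓ (dirVec e)
  have hp1 : ∀ n, pos s (1 + n) = dirVec e + pos (shift 1 s) n := fun n => by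
    rw [pos_add, show pos s 1 = dirVec e from by
      rw [pos_of_mem_cyl hc (i := 1) le_rfl]; simp]
  refine ⟨⟨fun n => ?_, (tendsto_shift_iff s 1).1 hC.1.2⟩, fun n hn => ?_, fun n hn => ?_⟩
  · rcases Nat.eq_zero_or_pos n with rfl | h0
    · simp [pos]
    · obtain ⟨k, rfl⟩ := Nat.exists_eq_add_of_le h0
      rw [hp1, map_add]
      have := hC.1.1 k
      omega
  · obtain ⟨k, rfl⟩ := Nat.exists_eq_add_of_le hn
    rw [hp1, map_add]
    have := hC.1.1 k
    omega
  · rcases Nat.eq_zero_or_pos n with rfl | h0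
    · simp [pos]
    · obtain ⟨k, rfl⟩ := Nat.exists_eq_add_of_le h0
      rw [hp1, map_add, map_add, heψ, zero_add]
      have h1 : NoHigh ℓ h (shift 1 s) k := by
        intro i hi hr
        have hreg : RegenTime ℓ s (1 + i) := by
          refine ⟨fun j hj => ?_, fun j hj => ?_⟩
          · rcases Nat.eq_zero_or_pos j with rfl | hj0
            · rw [hp1, map_add]
              have := hC.1.1 i
              simp only [pos, Finset.sum_range_zero, map_zero] at this ⊢
              omega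
            · obtain ⟨u, rfl⟩ := Nat.exists_eq_add_of_le hj0
              rw [hp1, hp1, map_add, map_add]
              have := hr.1 u (by omega)
              linarith
          · obtain ⟨u, rfl⟩ := Nat.exists_eq_add_of_le (show 1 ≤ j by omega)
            rw [hp1, hp1, map_add, map_add]
            have := hr.2 u (by omega)
            linarith
        have := hn (1 + i) (by omega) hreg
        rw [hp1, map_add] at this
        omega
      refine (hC.2 k h1).trans ?_
      have : (sl : ℤ) * 1 ≤ sl * a := mul_le_mul_of_nonneg_left he0 (by positivity)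
      linarith

end Vale.Agent.P147
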