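import Vale.Agent.P147.Dir.Extent
import Vale.Agent.P147.Velocity
import Vale.Agent.P147.Ergodic

/-!
Asymptotic direction on the event of escape to `+∞`.
-/

noncomputable section

namespace Vale.Agent.P147

open MeasureTheory ProbabilityTheory Filter
open scoped ENNReal Topology

set_option linter.unusedSectionVars false

variable {d : ℕ} {μ : Measure (Row d)} {ℓ : Fin d → ℤ}

/-- A coordinate as a homomorphism. -/
def crd (j : Fin d) : (Fin d → ℤ) →+ ℤ := Pi.evalAddMonoidHom (fun _ => ℤ) j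

lemma crd_apply (j : Fin d) (x : Fin d → ℤ) : crd j x = x j := rfl

lemma abs_crd_step (j : Fin d) (e : Dir d) : |crd j (dirVec e)| ≤ 1 := by
  rw [crd_apply, dirVec]
  obtain ⟨i, b⟩ := e
  rcases eq_or_ne j i with h | h <;> cases b <;> simp [h]

variable [IsProbabilityMeasure μ]

/-- Every coordinate of a block has extent of finite mean. -/
theorem mean_ext_crd (he : IsElliptic μ) (hp : annealed μ (Dp ℓ) ≠ 0) (j : Fin d) :
    ∑' b, blkPMF μ hp b * (lext (crd j) b : ℝ≥0∞) ≠ ⊤ := by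
  classical
  obtain ⟨i0, hi0⟩ := Function.ne_iff.1 (ne_zero_of_Dp hp)
  simp only [Pi.zero_apply] at hi0
  have hother : ∀ j, j ≠ i0 → ∑' b, blkPMF μ hp b * (lext (crd j) b : ℝ≥0∞) ≠ ⊤ := by
    intro j hj
    obtain ⟨s, hs⟩ : ∃ s : Bool, 0 < lev ℓ (dirVec (i0, s)) := by
      rcases lt_or_gt_of_ne hi0 with h | h
      · exact ⟨false, by simp [lev, dirVec, Pi.single_apply]; omega⟩
      · exact ⟨true, by simp [lev, dirVec, Pi.single_apply]; omega⟩
    refine mean_lext he hp (abs_crd_step j) hs (f := (j, true)) (f' := (j, false)) ?_ ?_ ?_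
    · cases s <;> simp [crd_apply, dirVec, hj]
    · simp [crd_apply, dirVec]
    · simp [crd_apply, dirVec]
  rcases eq_or_ne j i0 with rfl | hj
  swap
  · exact hother j hj
  have hb : ∀ b : Blk ℓ, lext (crd j) b ≤
      blkLev b + ∑ i ∈ Finset.univ.erase j, (ℓ i).natAbs * lext (crd i) b := by
    intro b
    refine Finset.sup_le fun n hn => ?_
    have hn' : n ≤ b.1.length := Nat.le_of_lt_succ (Finset.mem_range.1 hn)
    set x := endPt (b.1.take n) with hx
    obtain ⟨h0, h1⟩ := lev_in_block b hn'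
    have e : ℓ j * x j = lev ℓ x - ∑ i ∈ Finset.univ.erase j, ℓ i * x i := by
      show _ = (∑ i, ℓ i * x i) - _
      rw [← Finset.add_sum_erase _ _ (Finset.mem_univ j)]; ring
    have key : |x j| ≤ (blkLev b : ℤ) +
        ∑ i ∈ Finset.univ.erase j, ((ℓ i).natAbs : ℤ) * lext (crd i) b := by
      calc |x j| ≤ |ℓ j| * |x j| := le_mul_of_one_le_left (abs_nonneg _) (Int.one_le_abs hi0)
        _ = |ℓ j * x j| := (abs_mul _ _).symm
        _ ≤ |lev ℓ x| + |∑ i ∈ Finset.univ.erase j, ℓ i * x i| := by rw [e]; exact abs_sub _ _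
        _ ≤ _ := by
          refine add_le_add (by rw [abs_of_nonneg h0]; exact h1)
            ((Finset.abs_sum_le_sum_abs _ _).trans (Finset.sum_le_sum fun i _ => ?_))
          rw [abs_mul, Int.natCast_natAbs]
          exact mul_le_mul_of_nonneg_left (abs_psi_le_ext (ψ := crd i) b hn') (abs_nonneg _)
    rw [← Nat.cast_le (α := ℤ), Int.natCast_natAbs]
    push_cast [Int.natCast_natAbs] at key ⊢
    exact key
  refine ne_top_of_le_ne_top (ENNReal.add_ne_top.2 ⟨mean_blkLev (μ := μ) hp,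
    ENNReal.sum_ne_top.2 fun i (hi : i ∈ Finset.univ.erase j) =>
      ENNReal.mul_ne_top (ENNReal.natCast_ne_top (ℓ i).natAbs)
        (hother i (Finset.ne_of_mem_erase hi))⟩) ?_
  simp only [← ENNReal.tsum_mul_left]
  rw [← Summable.tsum_finsetSum fun _ _ => ENNReal.summable, ← ENNReal.tsum_add]
  refine ENNReal.tsum_le_tsum fun b => ?_
  refine (mul_le_mul' le_rfl (Nat.cast_le.2 (hb b))).trans (le_of_eq ?_)
  push_cast
  rw [mul_add, Finset.mul_sum]
  refine congrArg₂ (· + ·) rfl (Finset.sum_congr rfl fun i _ => ?_)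
  ring

/-- Strong law along an i.i.d. sequence of blocks. -/
theorem seqLaw_lln (p : PMF (Blk ℓ)) (F : Blk ℓ → ℝ) (B : Blk ℓ → ℕ) (hFB : ∀ b, |F b| ≤ B b)
    (hB : ∑' b, p b * (B b : ℝ≥0∞) ≠ ⊤) :
    ∀ᵐ ω ∂seqLaw p, Tendsto (fun n : ℕ => (∑ t ∈ Finset.range n, F (ω t)) / n) atTop
      (𝓝 (∫ ω, F (ω 0) ∂seqLaw p)) := by
  have hFm : Measurable F := measurable_of_countable F
  have hint : Integrable (fun ω : ℕ → Blk ℓ => F (ω 0)) (seqLaw p) := by
    refine ⟨(hFm.comp (measurable_pi_apply 0)).aestronglyMeasurable, ?_⟩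
    refine lt_of_le_of_lt ?_ (lt_top_iff_ne_top.2 hB)
    rw [← lintegral_seq_eval p (fun b => (B b : ℝ≥0∞)) 0]
    refine lintegral_mono fun ω => ?_
    rw [Real.enorm_eq_ofReal_abs, ← ENNReal.ofReal_natCast]
    exact ENNReal.ofReal_le_ofReal (hFB _)
  have hind : iIndepFun (fun (t : ℕ) (ω : ℕ → Blk ℓ) => F (ω t)) (seqLaw p) := by
    unfold seqLaw
    exact iIndepFun_infinitePi (X := fun _ => F) fun _ => hFm
  have hid : ∀ t, IdentDistrib (fun ω : ℕ → Blk ℓ => F (ω t)) (fun ω => F (ω 0))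
      (seqLaw p) (seqLaw p) := fun t => by
    refine ⟨(hFm.comp (measurable_pi_apply t)).aemeasurable,
      (hFm.comp (measurable_pi_apply 0)).aemeasurable, ?_⟩
    have h : ∀ u : ℕ, (seqLaw p).map (fun ω : ℕ → Blk ℓ => F (ω u)) = p.toMeasure.map F := by
      intro u
      rw [show (fun ω : ℕ → Blk ℓ => F (ω u)) = F ∘ (fun ω => ω u) from rfl,
        ← Measure.map_map hFm (measurable_pi_apply u), seqLaw, Measure.infinitePi_map_eval]
    rw [h t, h 0]
  filter_upwards [strong_law_ae (fun (t : ℕ) (ω : ℕ → Blk ℓ) => F (ω t)) hint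
    (fun i j hij => hind.indepFun hij) hid] with ω hω
  simpa [div_eq_inv_mul] using hω

lemma tendsto_term {g : ℕ → ℝ} {c : ℝ}
    (h : Tendsto (fun n : ℕ => (∑ t ∈ Finset.range n, g t) / n) atTop (𝓝 c)) :
    Tendsto (fun n : ℕ => g n / n) atTop (𝓝 0) := by
  have h1 : Tendsto (fun n : ℕ => ((n + 1 : ℕ) : ℝ) / n) atTop (𝓝 1) := by
    have h0 : Tendsto (fun n : ℕ => 1 + (1 : ℝ) / n) atTop (𝓝 1) := by
      simpa using (tendsto_const_div_atTop_nhds_zero_nat (1 : ℝ)).const_add 1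
    refine h0.congr' (eventually_atTop.2 ⟨1, fun n hn => ?_⟩)
    have : (n : ℝ) ≠ 0 := by positivity
    field_simp
    push_cast
    ring
  have h2 := (((tendsto_add_atTop_iff_nat 1).2 h).mul h1).sub h
  rw [mul_one, sub_self] at h2
  refine h2.congr' (eventually_atTop.2 ⟨1, fun n hn => ?_⟩)
  have : (n : ℝ) ≠ 0 := by positivity
  have h3 : ((n + 1 : ℕ) : ℝ) ≠ 0 := by positivity
  field_simp
  rw [Finset.sum_range_succ]
  ring

/-- The walk has asymptotic direction `v` with respect to the levels. -/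
def HasDir (ℓ : Fin d → ℤ) (v : Fin d → ℝ) : Set (Walk d) :=
  {s | ∀ j, Tendsto (fun n => (pos s n j : ℝ) / (lev ℓ (pos s n) : ℝ)) atTop (𝓝 (v j))}

lemma measurableSet_hasDir (ℓ : Fin d → ℤ) (v : Fin d → ℝ) : MeasurableSet (HasDir ℓ v) := by
  have : HasDir ℓ v = ⋂ j, {s : Walk d |
      Tendsto (fun n => (pos s n j : ℝ) / (lev ℓ (pos s n) : ℝ)) atTop (𝓝 (v j))} := by
    ext; simp [HasDir]
  rw [this]
  exact MeasurableSet.iInter fun j => measurableSet_tendsto _ fun n =>
    (measurable_of_countable fun x : Fin d → ℤ => (x j : ℝ) / (lev ℓ x : ℝ)).comp (measurable_pos n)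

lemma hasDir_of_shift {v : Fin d → ℝ} {s : Walk d} {a : ℕ} (hA : shift a s ∈ Ap ℓ)
    (hE : shift a s ∈ HasDir ℓ v) : s ∈ HasDir ℓ v := by
  intro j
  rw [← tendsto_add_atTop_iff_nat a]
  have hL : Tendsto (fun n => (lev ℓ (pos (shift a s) n) : ℝ)) atTop atTop :=
    tendsto_intCast_atTop_iff.2 hA
  have hz : ∀ r : ℝ, Tendsto (fun n => r / (lev ℓ (pos (shift a s) n) : ℝ)) atTop (𝓝 0) :=
    fun r => tendsto_const_nhds.div_atTop hL
  have h1 := ((hz (pos s a j)).add (hE j)).div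
    ((hz (lev ℓ (pos s a))).add_const 1) (by norm_num)
  rw [zero_add, zero_add, div_one] at h1
  refine h1.congr' ((hL.eventually_gt_atTop 0).mono fun n hn => ?_)
  have e : pos s (n + a) = pos s a + pos (shift a s) n := by rw [add_comm, pos_add]
  simp only [Pi.div_apply]
  rw [e, map_add, Pi.add_apply]
  push_cast
  rw [← add_div, div_add_one hn.ne', div_div_div_cancel_right₀ hn.ne']

/-- The blocks determine the direction. -/
lemma hasDir_of_blocks {ω : ℕ → Blk ℓ} {s : Walk d} (hs : ∀ k, s ∈ blkEvent (head k ω))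
    {a : Fin d → ℝ} {m : ℝ} (hm : m ≠ 0)
    (ha : ∀ j, Tendsto (fun k : ℕ =>
      (∑ t ∈ Finset.range k, ((endPt (ω t).1 j : ℤ) : ℝ)) / k) atTop (𝓝 (a j)))
    (he : ∀ j, Tendsto (fun k : ℕ => (lext (crd j) (ω k) : ℝ) / k) atTop (𝓝 0))
    (hH : Tendsto (fun k : ℕ => (∑ t ∈ Finset.range k, (blkLev (ω t) : ℝ)) / k) atTop (𝓝 m)) :
    s ∈ HasDir ℓ fun j => a j / m := by
  intro j
  set st : ℕ → ℕ := fun J => (cat (head J ω)).length
  have hst : ∀ J, J ≤ st J := by
    intro J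
    induction J with
    | zero => exact Nat.zero_le _
    | succ J ih =>
      simp only [st, head_succ_cat, List.length_append]
      have := (ω J).2.length_pos
      simp only [st] at ih; omega
  have hloc : ∀ n, ∃ J m, m < (ω J).1.length ∧ n = st J + m := fun n => by
    obtain ⟨J, -, m, hm, he⟩ := exists_block_at ω (lt_of_lt_of_le n.lt_succ_self (hst (n + 1)))
    exact ⟨J, m, hm, he⟩
  choose J r hr hn using hloc
  have hJ : Tendsto J atTop atTop := by
    refine tendsto_atTop.2 fun N => eventually_atTop.2 ⟨st N, fun n hN => ?_⟩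
    by_contra hlt
    have h1 := start_mono ω (show J n + 1 ≤ N by omega)
    rw [head_succ_cat, List.length_append] at h1
    have := hn n; have := hr n; simp only [st] at *; omega
  have hpos : ∀ n, pos s n = endPt (cat (head (J n) ω)) + endPt ((ω (J n)).1.take (r n)) := by
    intro n
    conv_lhs => rw [hn n]
    exact pos_block (hs (J n + 1)).1 (Nat.lt_succ_self _) (hr n).le
  have hHz := tendsto_term hH
  have hx : Tendsto (fun n => (pos s n j : ℝ) / (J n : ℝ)) atTop (𝓝 (a j)) := by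
    have hd : Tendsto (fun n => ((endPt ((ω (J n)).1.take (r n)) j : ℤ) : ℝ) / (J n : ℝ))
        atTop (𝓝 0) := by
      refine squeeze_zero_norm (fun n => ?_) ((he j).comp hJ)
      rw [Real.norm_eq_abs, abs_div, Nat.abs_cast]
      refine div_le_div_of_nonneg_right ?_ (Nat.cast_nonneg _)
      exact_mod_cast abs_psi_le_ext (ψ := crd j) (ω (J n)) (hr n).le
    have h1 := ((ha j).comp hJ).add hd
    rw [add_zero] at h1
    refine h1.congr fun n => ?_
    simp only [Function.comp]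
    rw [hpos n, endPt_cat_head, Pi.add_apply, Finset.sum_apply, Int.cast_add, Int.cast_sum, add_div]
  have hl : Tendsto (fun n => (lev ℓ (pos s n) : ℝ) / (J n : ℝ)) atTop (𝓝 m) := by
    have hd : Tendsto (fun n => (lev ℓ (endPt ((ω (J n)).1.take (r n))) : ℝ) / (J n : ℝ))
        atTop (𝓝 0) := by
      refine squeeze_zero_norm (fun n => ?_) (hHz.comp hJ)
      obtain ⟨h1, h2⟩ := lev_in_block (ω (J n)) (hr n).le
      rw [Real.norm_eq_abs, abs_div, Nat.abs_cast,
        abs_of_nonneg (by exact_mod_cast h1)]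
      exact div_le_div_of_nonneg_right (by exact_mod_cast h2) (Nat.cast_nonneg _)
    have h1 := (hH.comp hJ).add hd
    rw [add_zero] at h1
    refine h1.congr fun n => ?_
    simp only [Function.comp]
    rw [hpos n, map_add, lev_start, Int.cast_add, add_div, psum]
    push_cast
    rfl
  refine (hx.div hl hm).congr' ((hJ.eventually (eventually_ge_atTop 1)).mono fun n hn => ?_)
  simp only [Pi.div_apply]
  rw [div_div_div_cancel_right₀ (by positivity)]

/-- The blocks of a trajectory. -/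
def decode [Inhabited (Blk ℓ)] (s : Walk d) : ℕ → Blk ℓ := fun i =>
  haveI : Decidable (∃ bs : Fin (i + 1) → Blk ℓ, s ∈ blkEvent bs) := Classical.dec _
  if h : ∃ bs : Fin (i + 1) → Blk ℓ, s ∈ blkEvent bs then h.choose (Fin.last i) else default

lemma blkEvent_head_mono {ω : ℕ → Blk ℓ} {s : Walk d} {i k : ℕ} (hik : i ≤ k)
    (hs : s ∈ blkEvent (head k ω)) : s ∈ blkEvent (head i ω) := by
  induction k, hik using Nat.le_induction with
  | base => exact hs
  | succ k _ ih =>
    refine ih ?_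
    obtain ⟨hc, hD⟩ := hs
    rw [head_succ_cat, cyl_append] at hc
    refine ⟨hc.1, ?_⟩
    have h1 : shift (cat (head k ω)).length s ∈ blkEvent (ℓ := ℓ) (fun _ : Fin 1 => ω k) := by
      refine ⟨by simpa [cat] using hc.2, ?_⟩
      simp only [Set.mem_preimage] at hD ⊢
      have e1 : (cat (fun _ : Fin 1 => ω k)).length = (ω k).1.length := by simp [cat]
      convert hD using 1
      funext i; simp only [shift, e1, head_succ_cat, List.length_append, add_assoc]
    exact blkEvent_subset_Dp _ h1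

lemma decode_eq [Inhabited (Blk ℓ)] {ω : ℕ → Blk ℓ} {s : Walk d} {k : ℕ}
    (hs : s ∈ blkEvent (head k ω)) {i : ℕ} (hi : i < k) : decode s i = ω i := by
  have h1 := blkEvent_head_mono (show i + 1 ≤ k from hi) hs
  have hex : ∃ bs : Fin (i + 1) → Blk ℓ, s ∈ blkEvent bs := ⟨_, h1⟩
  rw [decode, dif_pos hex]
  by_contra hne
  exact Set.disjoint_left.1 (blkEvent_disjoint (i + 1) fun h => hne (congrFun h (Fin.last i)))
    hex.choose_spec h1

lemma measurable_decode [Inhabited (Blk ℓ)] : Measurable (decode (ℓ := ℓ)) := by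
  classical
  refine measurable_pi_lambda _ fun i => measurable_to_countable' fun b => ?_
  have : (fun s => decode (ℓ := ℓ) s i) ⁻¹' {b} =
      (⋃ bs : {bs : Fin (i + 1) → Blk ℓ // bs (Fin.last i) = b}, blkEvent bs.1) ∪
        ((⋃ bs : Fin (i + 1) → Blk ℓ, blkEvent bs)ᶜ ∩ {_s | b = default}) := by
    ext s
    simp only [Set.mem_preimage, Set.mem_singleton_iff, Set.mem_union, Set.mem_iUnion,
      Set.mem_inter_iff, Set.mem_compl_iff, Set.mem_ofPred_eq]
    by_cases hex : ∃ bs : Fin (i + 1) → Blk ℓ, s ∈ blkEvent bs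
    · rw [decode, dif_pos hex]
      refine ⟨fun h => Or.inl ⟨⟨_, h⟩, hex.choose_spec⟩, ?_⟩
      rintro (⟨⟨bs, hbs⟩, hm⟩ | ⟨h, -⟩)
      · by_contra hne
        exact Set.disjoint_left.1 (blkEvent_disjoint (i + 1) fun h =>
          hne ((congrFun h (Fin.last i)).trans hbs)) hex.choose_spec hm
      · exact absurd hex h
    · rw [decode, dif_neg hex]
      exact ⟨fun h => Or.inr ⟨hex, h.symm⟩, fun h => h.elim
        (fun ⟨bs, hm⟩ => absurd ⟨_, hm⟩ hex) fun h => h.2.symm⟩
  rw [this]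
  exact (MeasurableSet.iUnion fun bs => measurableSet_blkEvent _).union
    ((MeasurableSet.iUnion fun bs => measurableSet_blkEvent _).compl.inter (.const _))

/-- Under `Dp` the blocks are i.i.d. -/
theorem decode_null [Inhabited (Blk ℓ)] (hp : annealed μ (Dp ℓ) ≠ 0) {S : Set (ℕ → Blk ℓ)}
    (hS : MeasurableSet S) (h0 : seqLaw (blkPMF μ hp) S = 0) :
    annealed μ (Dp ℓ ∩ decode (ℓ := ℓ) ⁻¹' S) = 0 := by
  classical
  set p := annealed μ (Dp ℓ)
  set q := blkPMF μ hp
  set ν := ((annealed μ).restrict (Dp ℓ)).map (decode (ℓ := ℓ))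
  have hν : ∀ T : Set (ℕ → Blk ℓ), MeasurableSet T →
      ν T = annealed μ (Dp ℓ ∩ decode (ℓ := ℓ) ⁻¹' T) := fun T hT => by
    rw [Measure.map_apply measurable_decode hT, Measure.restrict_apply (measurable_decode hT),
      Set.inter_comm]
  have hhead : ∀ k (T : Set (ℕ → Blk ℓ)), (∀ ω η, head k ω = head k η → ω ∈ T → η ∈ T) →
      ν T = p * seqLaw q T := by
    intro k T hT
    rw [hν T (measurableSet_of_head k hT)]
    have hd : ∀ ω s, s ∈ blkEvent (head k ω) → head k (decode (ℓ := ℓ) s) = head k ω := fun ω s hs =>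
      funext fun i => decode_eq hs i.2
    exact le_antisymm (Dp_inter_le hp hT fun ω s hs hm => hT _ _ (hd ω s hs) hm)
      (Dp_inter_ge hp hT fun ω s hm hs => hT _ _ (hd ω s hs).symm hm)
  have hQ : p⁻¹ • ν = seqLaw q := by
    have hpi : ∀ (s : Finset ℕ) (t : ℕ → Set (Blk ℓ)), (p⁻¹ • ν) ((s : Set ℕ).pi t) =
        seqLaw q ((s : Set ℕ).pi t) := by
      intro s t
      rw [Measure.smul_apply, smul_eq_mul, hhead (s.sup id + 1) _ ?_, ← mul_assoc,
        ENNReal.inv_mul_cancel hp (measure_ne_top _ _), one_mul]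
      intro ω η hh hω i hi
      have := congrFun hh ⟨i, Nat.lt_succ_of_le (Finset.le_sup (f := id) (Finset.mem_coe.1 hi))⟩
      simp only [head] at this
      rw [← this]; exact hω i hi
    refine Measure.eq_infinitePi _ fun s t ht => ?_
    rw [hpi, seqLaw, Measure.infinitePi_pi _ fun i _ => ht i]
  rw [← hν S hS]
  have := congrArg (fun m : Measure (ℕ → Blk ℓ) => m S) hQ
  simp only [Measure.smul_apply, smul_eq_mul, h0, mul_eq_zero, ENNReal.inv_eq_zero] at this
  exact this.resolve_left (measure_ne_top _ _)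

/-- Almost surely all blocks are determined. -/
lemma ae_decode [Inhabited (Blk ℓ)] (hp : annealed μ (Dp ℓ) ≠ 0) :
    annealed μ (Dp ℓ \ {s | ∀ k, s ∈ blkEvent (head k (decode (ℓ := ℓ) s))}) = 0 := by
  refine measure_mono_null (t := ⋃ k : ℕ, Dp ℓ \ ⋃ bs : Fin k → Blk ℓ, blkEvent bs) ?_
    (measure_iUnion_null fun k => annealed_Dp_sdiff_blocks hp k)
  rintro s ⟨hD, hs⟩
  simp only [Set.mem_ofPred_eq, not_forall] at hs
  obtain ⟨k, hk⟩ := hs
  refine Set.mem_iUnion.2 ⟨k, hD, fun hu => hk ?_⟩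
  obtain ⟨bs, hbs⟩ := Set.mem_iUnion.1 hu
  have he : head k (fun i => if h : i < k then bs ⟨i, h⟩ else default) = bs := by
    funext i; simp [head]
  have h1 : head k (decode s) = bs := funext fun i => by
    have := decode_eq (he.symm ▸ hbs) i.2
    simpa [head] using this
  rwa [h1]

/-- Asymptotic direction, together with the laws of large numbers of the blocks. -/
theorem blocks_dir (he : IsElliptic μ) (hp : annealed μ (Dp ℓ) ≠ 0) :
    ∃ v : Fin d → ℝ, ∑ i, (ℓ i : ℝ) * v i = 1 ∧ annealed μ (Ap ℓ \ HasDir ℓ v) = 0 ∧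
      ∀ᵐ ω ∂seqLaw (blkPMF μ hp), ∀ j,
        Tendsto (fun k : ℕ => (∑ t ∈ Finset.range k, ((endPt (ω t).1 j : ℤ) : ℝ)) /
          ∑ t ∈ Finset.range k, (blkLev (ω t) : ℝ)) atTop (𝓝 (v j)) ∧
        Tendsto (fun k : ℕ => (lext (crd j) (ω k) : ℝ) / k) atTop (𝓝 0) := by
  have hA : annealed μ (Ap ℓ) ≠ 0 := fun h => hp (measure_mono_null (fun s hs => hs.2) h)
  obtain ⟨b0⟩ : Nonempty (Blk ℓ) := ⟨(blkPMF μ hp).support_nonempty.some⟩
  let : Inhabited (Blk ℓ) := ⟨b0⟩
  set q := blkPMF μ hp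
  set a : Fin d → ℝ := fun j => ∫ ω, ((endPt (ω 0).1 j : ℤ) : ℝ) ∂seqLaw q
  set m : ℝ := ∫ ω, (blkLev (ω 0) : ℝ) ∂seqLaw q
  have h1 := fun j => seqLaw_lln q (fun b => ((endPt b.1 j : ℤ) : ℝ)) (lext (crd j))
    (fun b => by
      have := abs_psi_le_ext (ψ := crd j) b (le_refl b.1.length)
      rw [List.take_length, crd_apply] at this
      exact_mod_cast this) (mean_ext_crd he hp j)
  have h2 := seqLaw_lln q (fun b => (blkLev b : ℝ)) blkLev (fun b => by rw [Nat.abs_cast])
    (mean_blkLev hp)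
  have h3 := fun j => seqLaw_lln q (fun b => (lext (crd j) b : ℝ)) (lext (crd j))
    (fun b => by rw [Nat.abs_cast]) (mean_ext_crd he hp j)
  have hm : m ≠ 0 := by
    obtain ⟨ω, hω⟩ := h2.exists
    refine ne_of_gt (lt_of_lt_of_le one_pos
      (ge_of_tendsto hω (eventually_atTop.2 ⟨1, fun n hn => ?_⟩)))
    rw [le_div_iff₀ (by positivity), one_mul]
    calc (n : ℝ) = ∑ _t ∈ Finset.range n, (1 : ℝ) := by simp
      _ ≤ _ := Finset.sum_le_sum fun t _ => by exact_mod_cast one_le_blkLev (ω t)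
  set v : Fin d → ℝ := fun j => a j / m
  have hD : annealed μ (Dp ℓ \ HasDir ℓ v) = 0 := by
    obtain ⟨N, hN, hNm, hN0⟩ := exists_measurable_superset_of_null (ae_iff.1
      ((ae_all_iff.2 h1).and (h2.and (ae_all_iff.2 h3))))
    refine measure_mono_null ?_ (measure_union_null (ae_decode hp) (decode_null hp hNm hN0))
    rintro s ⟨hs, hnd⟩
    by_cases hall : ∀ k, s ∈ blkEvent (head k (decode (ℓ := ℓ) s))
    swap
    · exact Or.inl ⟨hs, hall⟩
    refine Or.inr ⟨hs, hN ?_⟩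
    simp only [Set.mem_ofPred_eq]
    rintro ⟨g1, g2, g3⟩
    exact hnd (hasDir_of_blocks hall hm g1 (fun j => tendsto_term (g3 j)) g2)
  have hnull : annealed μ (Ap ℓ \ HasDir ℓ v) = 0 := by
    by_contra hne
    refine annealed_Dp_inter_ne_zero ((measurableSet_Ap ℓ).diff (measurableSet_hasDir ℓ v))
      Set.sdiff_subset (fun s hs a => ⟨(shift_mem_Ap_iff s a).2 hs.1,
        fun h => hs.2 (hasDir_of_shift ((shift_mem_Ap_iff s a).2 hs.1) h)⟩) hne
      (measure_mono_null (fun s (hs : s ∈ Dp ℓ ∩ (Ap ℓ \ HasDir ℓ v)) => show s ∈ Dp ℓ \ HasDir ℓ v from ⟨hs.1, hs.2.2⟩) hD)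
  have hlim : ∀ᵐ ω ∂seqLaw q, ∀ j,
      Tendsto (fun k : ℕ => (∑ t ∈ Finset.range k, ((endPt (ω t).1 j : ℤ) : ℝ)) /
        ∑ t ∈ Finset.range k, (blkLev (ω t) : ℝ)) atTop (𝓝 (v j)) ∧
      Tendsto (fun k : ℕ => (lext (crd j) (ω k) : ℝ) / k) atTop (𝓝 0) := by
    filter_upwards [ae_all_iff.2 h1, h2, ae_all_iff.2 h3] with ω g1 g2 g3 j
    refine ⟨((g1 j).div g2 hm).congr' (eventually_atTop.2 ⟨1, fun k hk => ?_⟩),
      tendsto_term (g3 j)⟩
    simp only [Pi.div_apply]
    exact div_div_div_cancel_right₀ (by positivity) _ _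
  refine ⟨v, ?_, hnull, hlim⟩
  obtain ⟨s, hsA, hsD⟩ : (Ap ℓ ∩ HasDir ℓ v).Nonempty := by
    by_contra h
    rw [Set.not_nonempty_iff_eq_empty] at h
    refine hA (measure_mono_null (t := Ap ℓ \ HasDir ℓ v) (fun s hs => ⟨hs, fun hh => ?_⟩) hnull)
    have hm : s ∈ Ap ℓ ∩ HasDir ℓ v := ⟨hs, hh⟩
    rw [h] at hm
    exact hm
  have hL : Tendsto (fun n => (lev ℓ (pos s n) : ℝ)) atTop atTop :=
    tendsto_intCast_atTop_iff.2 hsA
  refine tendsto_nhds_unique (tendsto_finsetSum _ fun i _ => (hsD i).const_mul _)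
    (tendsto_const_nhds.congr' ((hL.eventually_gt_atTop 0).mono fun n hn => ?_))
  simp only [← mul_div_assoc, ← Finset.sum_div]
  rw [eq_div_iff hn.ne', one_mul]
  simp [lev]

/-- Escape with positive probability gives an escape from the origin without going below. -/
lemma Dp_ne_zero_of_Ap (hA : annealed μ (Ap ℓ) ≠ 0) : annealed μ (Dp ℓ) ≠ 0 := fun h =>
  annealed_Dp_inter_ne_zero (measurableSet_Ap ℓ) Set.Subset.rfl
    (fun s hs a => (shift_mem_Ap_iff s a).2 hs) hA (measure_mono_null Set.inter_subset_left h)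

end Vale.Agent.P147
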