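import Vale.Agent.P147.Velocity
import Vale.Agent.P147.Ergodic

/-!
The sign-union law for real directions.
-/

noncomputable section

namespace Vale.Agent.P147

open MeasureTheory ProbabilityTheory Filter
open scoped ENNReal Topology symmDiff

set_option linter.unusedSectionVars false

variable {d : ℕ} {μ : Measure (Row d)} {u : Fin d → ℝ}

/-- Escape to `+∞` in a real direction. -/
def AR (u : Fin d → ℝ) : Set (Walk d) := {s | Tendsto (fun n => dotR u (pos s n)) atTop atTop}

lemma dotR_add (u : Fin d → ℝ) (x y : Fin d → ℤ) : dotR u (x + y) = dotR u x + dotR u y := by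
  simp [dotR, mul_add, Finset.sum_add_distrib]

lemma dotR_pos_shift (u : Fin d → ℝ) (s : Walk d) (a n : ℕ) :
    dotR u (pos s (a + n)) = dotR u (pos s a) + dotR u (pos (shift a s) n) := by
  rw [pos_add, dotR_add]

lemma dotR_intCast (ℓ x : Fin d → ℤ) : dotR (fun i => (ℓ i : ℝ)) x = (lev ℓ x : ℝ) := by
  simp [dotR, lev]

lemma AR_intCast (ℓ : Fin d → ℤ) : AR (fun i => (ℓ i : ℝ)) = Ap ℓ := by
  ext s
  simp [AR, Ap, dotR_intCast, tendsto_intCast_atTop_iff]

lemma AR_neg (u : Fin d → ℝ) :
    AR (-u) = {s | Tendsto (fun n => dotR u (pos s n)) atTop atBot} := by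
  ext s
  simp [AR, dotR_neg]

lemma shift_mem_AR (u : Fin d → ℝ) (s : Walk d) (a : ℕ) : shift a s ∈ AR u ↔ s ∈ AR u := by
  simp only [AR, Set.mem_ofPred_eq]
  conv_rhs => rw [← tendsto_add_atTop_iff_nat a]
  simp_rw [add_comm _ a, dotR_pos_shift]
  constructor
  · intro h; exact tendsto_atTop_add_const_left _ _ h
  · intro h; simpa using tendsto_atTop_add_const_left atTop (-dotR u (pos s a)) h

lemma measurable_dotR_pos (u : Fin d → ℝ) (n : ℕ) :
    Measurable fun s : Walk d => dotR u (pos s n) :=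
  (measurable_of_countable (dotR u)).comp (measurable_pos n)

lemma measurableSet_dot_ev (u : Fin d → ℝ) (b : ℝ) :
    MeasurableSet {s : Walk d | ∃ N, ∀ n, N ≤ n → b ≤ dotR u (pos s n)} := by
  have : {s : Walk d | ∃ N, ∀ n, N ≤ n → b ≤ dotR u (pos s n)} =
      ⋃ N : ℕ, ⋂ n : ℕ, {s : Walk d | N ≤ n → b ≤ dotR u (pos s n)} := by ext; simp
  rw [this]
  exact MeasurableSet.iUnion fun N => MeasurableSet.iInter fun n =>
    measurable_pos n (Set.to_countable {x | N ≤ n → b ≤ dotR u x}).measurableSet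

lemma measurableSet_AR (u : Fin d → ℝ) : MeasurableSet (AR u) := by
  have : AR u = ⋂ b : ℕ, {s : Walk d | ∃ N, ∀ n, N ≤ n → (b : ℝ) ≤ dotR u (pos s n)} := by
    ext s
    simp only [AR, Set.mem_ofPred_eq, Set.mem_iInter, tendsto_atTop, eventually_atTop]
    refine ⟨fun h b => h b, fun h b => ?_⟩
    obtain ⟨k, hk⟩ := exists_nat_ge b
    obtain ⟨N, hN⟩ := h k
    exact ⟨N, fun n hn => hk.trans (hN n hn)⟩
  rw [this]
  exact MeasurableSet.iInter fun b => measurableSet_dot_ev u b

/-- Never below the starting point in direction `u`. -/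
def D0R (u : Fin d → ℝ) : Set (Walk d) := {s | ∀ n, 0 ≤ dotR u (pos s n)}

lemma measurableSet_D0R (u : Fin d → ℝ) : MeasurableSet (D0R u) := by
  have : D0R u = ⋂ n, (fun s : Walk d => dotR u (pos s n)) ⁻¹' Set.Ici 0 := by ext; simp [D0R]
  rw [this]
  exact MeasurableSet.iInter fun n => measurable_dotR_pos u n measurableSet_Ici

variable [IsProbabilityMeasure μ]

/-- A null event stays null after any prefix. -/
lemma shift_null {E : Set (Walk d)} (hm : MeasurableSet E) (h0 : annealed μ E = 0)
    (l : List (Dir d)) : annealed μ (cyl l ∩ shift l.length ⁻¹' E) = 0 := by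
  have hmeas : Measurable fun ω : Env d => quenched ω E :=
    (Measure.measurable_coe hm).comp measurable_quenched
  rw [annealed_apply ((measurableSet_cyl _).inter (measurable_shift _ hm))]
  simp only [quenched_markov _ _ hm]
  have h1 : ∫⁻ ω, quenched (tau (endPt l) ω) E ∂envLaw μ = 0 := by
    rw [← lintegral_map hmeas (measurable_tau _), envLaw_map_tau, ← annealed_apply hm, h0]
  have hcomp : Measurable fun ω : Env d => quenched (tau (endPt l) ω) E :=
    hmeas.comp (measurable_tau _)
  rw [lintegral_eq_zero_iff hcomp] at h1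
  rw [lintegral_eq_zero_iff ((measurable_qw 0 l).fun_mul hcomp)]
  filter_upwards [h1] with ω hω
  simp only [Pi.zero_apply] at hω ⊢
  simp [hω]

lemma D0R_ne_zero (hpos : annealed μ (AR u) ≠ 0) : annealed μ (D0R u) ≠ 0 := by
  intro h0
  refine hpos (measure_mono_null (t := ⋃ l : List (Dir d), cyl l ∩ shift l.length ⁻¹' D0R u) ?_
    (measure_iUnion_null fun l => shift_null (measurableSet_D0R u) h0 l))
  intro s hs
  obtain ⟨N, hN⟩ := Filter.tendsto_atTop_atTop.1 hs 0
  obtain ⟨a, ha, hmin⟩ := Finset.exists_min_image (Finset.range (N + 1))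
    (fun n => dotR u (pos s n)) ⟨0, by simp⟩
  have hz : dotR u (pos s a) ≤ 0 := by simpa [pos, dotR] using hmin 0 (by simp)
  refine Set.mem_iUnion.2 ⟨pre s a, by simp [mem_cyl_iff], ?_⟩
  rw [length_pre]
  intro n
  have key : dotR u (pos s a) ≤ dotR u (pos s (a + n)) := by
    rcases le_or_gt (a + n) N with h | h
    · exact hmin _ (by simp; omega)
    · exact hz.trans (hN _ h.le)
  rw [dotR_pos_shift] at key
  linarith

/-- Reaching arbitrarily high values means escaping to `+∞`. -/
theorem high_not_AR_null (hpos : annealed μ (AR u) ≠ 0) :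
    annealed μ ({s | ∀ b : ℕ, ∃ n, (b : ℝ) ≤ dotR u (pos s n)} \ AR u) = 0 := by
  classical
  set P := annealed μ
  set p := P (D0R u)
  have hp0 : p ≠ 0 := D0R_ne_zero hpos
  set H := {s : Walk d | ∀ b : ℕ, ∃ n, (b : ℝ) ≤ dotR u (pos s n)}
  have hHm : MeasurableSet H := by
    have : H = ⋂ b : ℕ, ⋃ n, (fun s : Walk d => dotR u (pos s n)) ⁻¹' Set.Ici (b : ℝ) := by
      ext; simp [H]
    rw [this]
    exact MeasurableSet.iInter fun b => MeasurableSet.iUnion fun n =>
      measurable_dotR_pos u n measurableSet_Ici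
  set E := fun b : ℕ => {s : Walk d | ∃ N, ∀ n, N ≤ n → (b : ℝ) ≤ dotR u (pos s n)}
  suffices hb : ∀ b, P (H \ E b) = 0 by
    refine measure_mono_null ?_ (measure_iUnion_null hb)
    rintro s ⟨hs, hns⟩
    by_contra hc
    simp only [Set.mem_iUnion, Set.mem_sdiff, not_exists, not_and, not_not] at hc
    refine hns (tendsto_atTop.2 fun r => ?_)
    obtain ⟨k, hk⟩ := exists_nat_ge r
    obtain ⟨N, hN⟩ := hc k hs
    exact eventually_atTop.2 ⟨N, fun n hn => hk.trans (hN n hn)⟩
  intro b
  set G := H \ E b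
  have hGm : MeasurableSet G := hHm.diff (measurableSet_dot_ev u b)
  have key : ∀ ε : ℝ≥0∞, 0 < ε → p * P G ≤ 2 * ε := by
    intro ε hε
    obtain ⟨C, hC, hCG⟩ := exists_measure_symmDiff_lt_of_generateFrom_isSetRing (μ := P)
      (isSetRing_measurableCylinders (α := fun _ : ℕ => Dir d))
      ⟨{Set.univ}, Set.countable_singleton _, by
        rw [Set.singleton_subset_iff]
        exact (isSetAlgebra_measurableCylinders).univ_mem, by simp⟩
      generateFrom_measurableCylinders.symm hGm hε
    obtain ⟨I, S, hS, rfl⟩ := (mem_measurableCylinders _).1 hC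
    set C := cylinder (α := fun _ : ℕ => Dir d) I S
    set n := I.sup id + 1
    have hdep : ∀ s t : Walk d, pre s n = pre t n → s ∈ C → t ∈ C := by
      intro s t hst hs
      simp only [C, mem_cylinder] at hs ⊢
      have he : ∀ i ∈ I, t i = s i := fun i hi => by
        have hin : i < n := Nat.lt_succ_of_le (Finset.le_sup (f := id) hi)
        exact (congrFun (List.ofFn_injective hst) ⟨i, hin⟩).symm
      rw [show I.restrict t = I.restrict s from funext fun i => he i.1 i.2]
      exact hs
    let Q : List (Dir d) → Prop := fun l => n ≤ l.length ∧ (b : ℝ) ≤ dotR u (endPt l) ∧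
      ∀ i < l.length, dotR u (endPt (l.take i)) < dotR u (endPt l)
    let T : Set (List (Dir d)) := {l | Q l ∧ (∀ r < l.length, ¬Q (l.take r)) ∧
      ∃ s ∈ cyl l, s ∈ C}
    have hT : ∀ s : Walk d, ∀ a c, pre s a ∈ T → pre s c ∈ T → a = c := by
      intro s a c ha hc
      have key : ∀ a c, pre s a ∈ T → pre s c ∈ T → ¬a < c := fun a c ha hc hlt => by
        refine hc.2.1 a (by simpa using hlt) ?_
        have e : (pre s c).take a = pre s a := List.ext_getElem (by simp; omega) fun i _ _ => by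
          rw [List.getElem_take, getElem_pre, getElem_pre]
        rw [e]; exact ha.1
      exact le_antisymm (not_lt.1 (key c a hc ha)) (not_lt.1 (key a c ha hc))
    have cover : C ∩ H ⊆ ⋃ l : T, cyl l.1 := by
      rintro s ⟨hsC, hsH⟩
      obtain ⟨M, hM⟩ := exists_nat_gt ((b : ℝ) + ∑ i ∈ Finset.range (n + 1), |dotR u (pos s i)|)
      have hsum : 0 ≤ ∑ i ∈ Finset.range (n + 1), |dotR u (pos s i)| :=
        Finset.sum_nonneg fun _ _ => abs_nonneg _
      have hex : ∃ a, (M : ℝ) ≤ dotR u (pos s a) := hsH M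
      have ha1 := Nat.find_spec hex
      have hna : n ≤ Nat.find hex := by
        by_contra hc
        have h1 := Finset.single_le_sum (f := fun i => |dotR u (pos s i)|)
          (fun _ _ => abs_nonneg _) (Finset.mem_range.2 (show Nat.find hex < n + 1 by omega))
        have h2 := le_abs_self (dotR u (pos s (Nat.find hex)))
        have h3 : (0 : ℝ) ≤ b := Nat.cast_nonneg b
        linarith
      have hQ : Q (pre s (Nat.find hex)) := by
        refine ⟨by simpa using hna, by rw [endPt_pre]; linarith, fun i hi => ?_⟩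
        rw [length_pre] at hi
        rw [endPt_take_pre s hi.le, endPt_pre]
        exact (not_le.1 (Nat.find_min hex hi)).trans_le ha1
      have hex2 : ∃ a, Q (pre s a) := ⟨_, hQ⟩
      refine Set.mem_iUnion.2 ⟨⟨pre s (Nat.find hex2), Nat.find_spec hex2, fun r hr hr' => ?_,
        s, by simp [mem_cyl_iff], hsC⟩, by simp [mem_cyl_iff]⟩
      rw [length_pre] at hr
      have e : (pre s (Nat.find hex2)).take r = pre s r :=
        List.ext_getElem (by simp only [List.length_take, length_pre]; omega) fun i _ _ => by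
          rw [List.getElem_take, getElem_pre, getElem_pre]
      rw [e] at hr'
      exact Nat.find_min hex2 hr hr'
    have hpart : ∀ l : T, p * W μ l.1 = P (cyl l.1 ∩ shift l.1.length ⁻¹' D0R u) := by
      intro l
      rw [annealed_fresh _ (measurableSet_D0R u) ?_, mul_comm]
      intro s hs m hmem
      obtain ⟨i, hi, he⟩ := mem_srcs.1 hmem
      rw [zero_add] at he
      have h1 := congrArg (dotR u) he
      rw [dotR_add] at h1
      have := l.2.1.2.2 i hi
      have := hs m
      linarith
    have h1 : p * P (C ∩ H) ≤ P (C ∩ E b) := by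
      refine (mul_le_mul' le_rfl ((measure_mono cover).trans (measure_iUnion_le _))).trans ?_
      rw [← ENNReal.tsum_mul_left]
      simp only [P, annealed_cyl]
      rw [tsum_congr hpart, ← measure_iUnion (fun l l' hne => ((cyl_pairwise_disjoint hT hne).mono
        Set.inter_subset_left Set.inter_subset_left)) fun l =>
          (measurableSet_cyl _).inter (measurable_shift _ (measurableSet_D0R u))]
      refine measure_mono (Set.iUnion_subset fun l s hs => ?_)
      obtain ⟨⟨hln, hlb, -⟩, -, t, ht, htC⟩ := l.2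
      refine ⟨hdep t s ?_ htC, l.1.length, fun m hm => ?_⟩
      · refine List.ext_getElem (by simp) fun i h1 h2 => ?_
        rw [getElem_pre, getElem_pre]
        rw [length_pre] at h1
        rw [ht i (by omega), hs.1 i (by omega)]
      · obtain ⟨j, rfl⟩ := Nat.exists_eq_add_of_le hm
        rw [dotR_pos_shift, pos_of_mem_cyl hs.1 le_rfl, List.take_length]
        linarith [hs.2 j]
    have h2 : P (C ∩ E b) ≤ ε := by
      refine le_trans (measure_mono fun s hs => ?_) hCG.le
      exact Or.inl ⟨hs.1, fun hG => hG.2 hs.2⟩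
    have h3 : P G ≤ P (C ∩ H) + ε := by
      refine le_trans ?_ (add_le_add le_rfl hCG.le)
      refine le_trans (measure_mono fun s hs => ?_) (measure_union_le _ _)
      by_cases hc : s ∈ C
      · exact Or.inl ⟨hc, hs.1⟩
      · exact Or.inr (Or.inr ⟨hs, hc⟩)
    calc p * P G ≤ p * P (C ∩ H) + p * ε := (mul_le_mul' le_rfl h3).trans_eq (mul_add _ _ _)
      _ ≤ ε + ε := add_le_add (h1.trans h2) (mul_le_of_le_one_left' prob_le_one)
      _ = _ := (two_mul ε).symm
  have h0 : p * P G ≤ 0 := by
    refine ENNReal.le_of_forall_pos_le_add fun ε hε _ => ?_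
    rw [zero_add]
    refine (key ((ε : ℝ≥0∞) / 2) (ENNReal.half_pos (ENNReal.coe_ne_zero.2 hε.ne'))).trans ?_
    rw [ENNReal.mul_div_cancel two_ne_zero ENNReal.ofNat_ne_top]
  exact (mul_eq_zero.1 (nonpos_iff_eq_zero.1 h0)).resolve_left hp0

/-- Some step taken with fixed conditional probability is taken infinitely often. -/
theorem repeat_null (ν : Measure (Walk d)) [IsProbabilityMeasure ν] (T : Set (List (Dir d)))
    (e : Dir d) {η : ℝ≥0∞} (hη : η ≠ 0) (hT : ∀ l ∈ T, η * ν (cyl l) ≤ ν (cyl (l ++ [e])))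
    (m : ℕ) :
    ν {s | (∀ k, ∃ n, k ≤ n ∧ pre s n ∈ T) ∧ ∀ n, m ≤ n → pre s n ∈ T → s n ≠ e} = 0 := by
  classical
  set F := {s : Walk d | (∀ k, ∃ n, k ≤ n ∧ pre s n ∈ T) ∧ ∀ n, m ≤ n → pre s n ∈ T → s n ≠ e}
  have main : ∀ k : ℕ, ∀ l : List (Dir d), m ≤ l.length →
      ν (cyl l ∩ F) ≤ (1 - η) ^ k * ν (cyl l) := by
    intro k
    induction k with
    | zero => intro l _; simpa using measure_mono (μ := ν) Set.inter_subset_left
    | succ k ih =>
      intro l hl
      let N : Set (List (Dir d)) := {l' | l.length ≤ l'.length ∧ l'.take l.length = l ∧ l' ∈ T ∧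
        ∀ r, l.length ≤ r → r < l'.length → l'.take r ∉ T}
      have htake : ∀ (s : Walk d) {a c : ℕ}, a ≤ c → (pre s c).take a = pre s a := fun s a c h =>
        List.ext_getElem (by simp; omega) fun i _ _ => by
          rw [List.getElem_take, getElem_pre, getElem_pre]
      have hN : ∀ s : Walk d, ∀ a c, pre s a ∈ N → pre s c ∈ N → a = c := by
        intro s a c ha hc
        have key : ∀ a c, pre s a ∈ N → pre s c ∈ N → ¬a < c := fun a c ha hc hlt => by
          refine hc.2.2.2 a (by simpa using ha.1) (by simpa using hlt) ?_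
          rw [htake s hlt.le]; exact ha.2.2.1
        exact le_antisymm (not_lt.1 (key c a hc ha)) (not_lt.1 (key a c ha hc))
      have cover : cyl l ∩ F ⊆ ⋃ l' : N, ⋃ f ∈ Finset.univ.erase e, cyl (l'.1 ++ [f]) ∩ F := by
        rintro s ⟨hs, hF⟩
        have hex : ∃ n, l.length ≤ n ∧ pre s n ∈ T := hF.1 _
        obtain ⟨h1, h2⟩ := Nat.find_spec hex
        set n := Nat.find hex
        have hmem : pre s n ∈ N := by
          refine ⟨by simpa using h1, ?_, h2, fun r hr hr' => ?_⟩
          · rw [htake s h1]; exact (mem_cyl_iff _ _).1 hs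
          · rw [length_pre] at hr'
            rw [htake s hr'.le]
            exact fun hh => Nat.find_min hex hr' ⟨hr, hh⟩
        refine Set.mem_iUnion.2 ⟨⟨_, hmem⟩, Set.mem_iUnion₂.2 ⟨s n,
          Finset.mem_erase.2 ⟨hF.2 n (hl.trans h1) h2, Finset.mem_univ _⟩, ?_, hF⟩⟩
        rw [mem_cyl_concat]
        exact ⟨by simp [mem_cyl_iff], by simp⟩
      have hsplit : ∀ l' : N, ∑ f ∈ Finset.univ.erase e, ν (cyl (l'.1 ++ [f])) ≤
          (1 - η) * ν (cyl l'.1) := by
        intro l'
        rw [← measure_biUnion_finset ?_ fun f _ => measurableSet_cyl _]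
        · refine (measure_mono (t := cyl l'.1 \ cyl (l'.1 ++ [e])) ?_).trans ?_
          · refine Set.iUnion₂_subset fun f hf s hs => ?_
            rw [mem_cyl_concat] at hs
            refine ⟨hs.1, fun he => (Finset.mem_erase.1 hf).1 ?_⟩
            rw [mem_cyl_concat] at he
            rw [← hs.2, he.2]
          · rw [measure_sdiff (fun s hs => ((mem_cyl_concat _ _ _).1 hs).1)
              (measurableSet_cyl _).nullMeasurableSet (measure_ne_top _ _),
              ENNReal.sub_mul (fun _ _ => measure_ne_top _ _), one_mul]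
            exact tsub_le_tsub_left (hT _ l'.2.2.2.1) _
        · intro f _ f' _ hne
          refine Set.disjoint_left.2 fun s hs hs' => hne ?_
          rw [mem_cyl_concat] at hs hs'
          exact hs.2.symm.trans hs'.2
      calc ν (cyl l ∩ F)
          ≤ ∑' l' : N, ∑ f ∈ Finset.univ.erase e, ν (cyl (l'.1 ++ [f]) ∩ F) :=
            (measure_mono cover).trans ((measure_iUnion_le _).trans
              (ENNReal.tsum_le_tsum fun l' => measure_biUnion_finset_le _ _))
        _ ≤ ∑' l' : N, (1 - η) ^ k * ((1 - η) * ν (cyl l'.1)) := by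
            refine ENNReal.tsum_le_tsum fun l' => ?_
            refine (Finset.sum_le_sum fun f _ => ih _ (by simp; have := l'.2.1; omega)).trans ?_
            rw [← Finset.mul_sum]
            exact mul_le_mul' le_rfl (hsplit l')
        _ = (1 - η) ^ (k + 1) * ∑' l' : N, ν (cyl l'.1) := by
            rw [ENNReal.tsum_mul_left, ENNReal.tsum_mul_left, pow_succ, mul_assoc]
        _ ≤ _ := by
            gcongr
            rw [← measure_iUnion (cyl_pairwise_disjoint hN) fun l' => measurableSet_cyl _]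
            exact measure_mono (Set.iUnion_subset fun l' => cyl_subset_of_take l'.2.2.1)
  have hlim : Tendsto (fun k : ℕ => (1 - η) ^ k) atTop (𝓝 0) :=
    ENNReal.tendsto_pow_atTop_nhds_zero_of_lt_one
      (ENNReal.sub_lt_self ENNReal.one_ne_top one_ne_zero hη)
  refine measure_mono_null (t := ⋃ l : {l : List (Dir d) // m ≤ l.length}, cyl l.1 ∩ F)
    (fun s hs => Set.mem_iUnion.2 ⟨⟨pre s m, by simp⟩, by simp [mem_cyl_iff], hs⟩)
    (measure_iUnion_null fun l => ?_)
  refine nonpos_iff_eq_zero.1 (ge_of_tendsto' hlim fun k => ?_)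
  exact (main k l.1 l.2).trans (mul_le_of_le_one_right' prob_le_one)

/-- Visiting a set infinitely often means leaving it by the step `e` infinitely often. -/
theorem stuck_null (he' : IsElliptic μ) (S : Set (Fin d → ℤ)) (e : Dir d) (m : ℕ) :
    annealed μ {s | (∀ k, ∃ n, k ≤ n ∧ pos s n ∈ S) ∧ ∀ n, m ≤ n → pos s n ∈ S → s n ≠ e} = 0 := by
  classical
  let T1 : Set (List (Dir d)) := {l | endPt l ∈ S ∧ endPt l ∉ srcs 0 l}
  have h1 : annealed μ
      {s | (∀ k, ∃ n, k ≤ n ∧ pre s n ∈ T1) ∧ ∀ n, m ≤ n → pre s n ∈ T1 → s n ≠ e} = 0 := by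
    refine repeat_null _ T1 e (W_pos he' [e]).ne' (fun l hl => le_of_eq ?_) m
    rw [annealed_cyl, annealed_cyl, W_append l [e] ?_, mul_comm]
    intro z hz
    simp only [srcs, List.mem_singleton] at hz
    rw [hz]; exact hl.2
  let F : (Fin d → ℤ) → Set (Walk d) := fun x =>
    {s | (∀ k, ∃ n, k ≤ n ∧ pre s n ∈ {l | endPt l = x}) ∧
      ∀ n, m ≤ n → pre s n ∈ {l | endPt l = x} → s n ≠ e}
  have hFm : ∀ x, MeasurableSet (F x) := by
    intro x
    have : F x = (⋂ k : ℕ, ⋃ n : ℕ, {s : Walk d | k ≤ n ∧ pos s n = x}) ∩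
        ⋂ n : ℕ, {s : Walk d | m ≤ n → pos s n = x → s n ≠ e} := by
      ext s; simp [F, endPt_pre]
    rw [this]
    refine (MeasurableSet.iInter fun k => MeasurableSet.iUnion fun n => ?_).inter
      (MeasurableSet.iInter fun n => ?_)
    · exact measurable_pos n (Set.to_countable {z | k ≤ n ∧ z = x}).measurableSet
    · exact ((measurable_pos n).prodMk (measurable_pi_apply n))
        (Set.to_countable {q : (Fin d → ℤ) × Dir d | m ≤ n → q.1 = x → q.2 ≠ e}).measurableSet
  have h2 : ∀ x, annealed μ (F x) = 0 := by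
    intro x
    rw [annealed_apply (hFm x)]
    refine (lintegral_eq_zero_iff ((Measure.measurable_coe (hFm x)).comp measurable_quenched)).2 ?_
    have hpos : ∀ᵐ ω ∂envLaw μ, 0 < (ω x).1 e :=
      (measurePreserving_eval_infinitePi (fun _ : Fin d → ℤ => μ) x).quasiMeasurePreserving.ae
        (he'.mono fun p hp => hp e)
    filter_upwards [hpos] with ω hω
    have : IsProbabilityMeasure (quenched ω) := by unfold quenched; infer_instance
    refine repeat_null (quenched ω) _ e (η := ENNReal.ofReal ((ω x).1 e))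
      (by simpa using hω) (fun l hl => le_of_eq ?_) m
    rw [quenched_cyl, quenched_cyl, qw_append, zero_add, show endPt l = x from hl]
    simp only [qw, mul_one]
    rw [mul_comm]
  refine measure_mono_null ?_ (measure_union_null h1 (measure_iUnion_null h2))
  rintro s ⟨hio, hne⟩
  by_cases hx : ∃ x ∈ S, ∀ k, ∃ n, k ≤ n ∧ pos s n = x
  · obtain ⟨x, hxS, hx⟩ := hx
    refine Or.inr (Set.mem_iUnion.2 ⟨x, fun k => ?_, fun n hn hp => hne n hn ?_⟩)
    · obtain ⟨n, h1, h2⟩ := hx k; exact ⟨n, h1, by simp [endPt_pre, h2]⟩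
    · simp only [Set.mem_ofPred_eq, endPt_pre] at hp; rw [hp]; exact hxS
  refine Or.inl ⟨fun k => ?_, fun n hn hp => hne n hn (by simpa [endPt_pre] using hp.1)⟩
  push Not at hx
  have hfin : ∀ i, ∃ K, pos s i ∈ S → ∀ n, K ≤ n → pos s n ≠ pos s i := fun i => by
    by_cases hi : pos s i ∈ S
    · obtain ⟨K, hK⟩ := hx _ hi; exact ⟨K, fun _ => hK⟩
    · exact ⟨0, fun h => absurd h hi⟩
  choose K hK using hfin
  obtain ⟨n, hn, hnS⟩ := hio (max k ((Finset.range k).sup K))
  have hex : ∃ i, pos s i = pos s n := ⟨n, rfl⟩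
  have hi := Nat.find_spec hex
  refine ⟨Nat.find hex, ?_, show endPt _ ∈ S by rw [endPt_pre, hi]; exact hnS, fun hmem => ?_⟩
  · by_contra hlt
    rw [not_le] at hlt
    refine hK _ (by rw [hi]; exact hnS) n ?_ hi.symm
    exact (Finset.le_sup (Finset.mem_range.2 hlt)).trans ((le_max_right _ _).trans hn)
  · obtain ⟨j, hj, hje⟩ := mem_srcs.1 hmem
    rw [length_pre] at hj
    rw [zero_add, endPt_pre, endPt_take_pre s hj.le] at hje
    exact Nat.find_min hex hj (hje.symm.trans hi)

lemma ne_zero_of_AR (hpos : annealed μ (AR u) ≠ 0) : u ≠ 0 := by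
  rintro rfl
  refine hpos ?_
  have : AR (0 : Fin d → ℝ) = ∅ := by
    ext s
    simp only [AR, Set.mem_ofPred_eq, Set.mem_empty_iff_false, iff_false]
    intro h
    obtain ⟨n, hn⟩ := (Filter.tendsto_atTop.1 h 1).exists
    simp [dotR] at hn
    linarith
  rw [this]; exact measure_empty

/-- Escape with positive probability implies that one of the two escapes occurs. -/
theorem union_law (he' : IsElliptic μ) (hpos : annealed μ (AR u) ≠ 0) :
    annealed μ (AR u ∪ AR (-u))ᶜ = 0 := by
  classical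
  obtain ⟨i, hi⟩ := Function.ne_iff.1 (ne_zero_of_AR hpos)
  simp only [Pi.zero_apply] at hi
  obtain ⟨e, he⟩ : ∃ e : Dir d, 0 < dotR u (dirVec e) := by
    rcases lt_or_gt_of_ne hi with h | h
    · exact ⟨(i, false), by simp [dotR, dirVec, Pi.single_apply, h]⟩
    · exact ⟨(i, true), by simp [dotR, dirVec, Pi.single_apply, h]⟩
  set δ := dotR u (dirVec e)
  refine measure_mono_null ?_ (measure_union_null (high_not_AR_null hpos)
    (measure_iUnion_null fun q : ℤ × ℕ × ℕ => stuck_null he'
      {x | (q.1 : ℝ) + q.2.1 * δ ≤ dotR u x} e q.2.2))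
  intro s hs
  simp only [Set.mem_compl_iff, Set.mem_union, not_or, AR_neg, Set.mem_ofPred_eq] at hs
  by_cases hH : ∀ b : ℕ, ∃ n, (b : ℝ) ≤ dotR u (pos s n)
  · exact Or.inl ⟨hH, hs.1⟩
  push Not at hH
  obtain ⟨b, hb⟩ := hH
  refine Or.inr ?_
  by_contra hc
  simp only [Set.mem_iUnion, not_exists, Set.mem_ofPred_eq, not_and, not_forall, not_not,
    exists_prop] at hc
  obtain ⟨r, hr⟩ : ∃ r : ℝ, ∀ k, ∃ n, k ≤ n ∧ r ≤ dotR u (pos s n) := by
    by_contra h
    push Not at h
    exact hs.2 (tendsto_atBot.2 fun r => eventually_atTop.2 ((h r).imp fun K hK n hn => (hK n hn).le))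
  have hall : ∀ j : ℕ, ∀ k, ∃ n, k ≤ n ∧ (⌊r⌋ : ℝ) + j * δ ≤ dotR u (pos s n) := by
    intro j
    induction j with
    | zero =>
      intro k
      obtain ⟨n, h1, h2⟩ := hr k
      exact ⟨n, h1, by simpa using (Int.floor_le r).trans h2⟩
    | succ j ih =>
      intro k
      obtain ⟨n, h1, h2, h3⟩ := hc ⟨⌊r⌋, j, k⟩ ih
      refine ⟨n + 1, by simp only at h1; omega, ?_⟩
      have e1 : pos s (n + 1) = pos s n + dirVec e := by simp [pos, Finset.sum_range_succ, h3]
      rw [e1, dotR_add]
      push_cast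
      simp only at h2
      linarith
  obtain ⟨j, hj⟩ := exists_nat_ge (((b : ℝ) - ⌊r⌋) / δ)
  rw [div_le_iff₀ he] at hj
  obtain ⟨n, -, hn⟩ := hall j 0
  linarith [hb n]

end Vale.Agent.P147
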