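import Vale.Agent.P147.Dir.Opposite
import Vale.Agent.P147.Dir.Union

/-!
All escapes happen along one line.
-/

noncomputable section

namespace Vale.Agent.P147

open MeasureTheory ProbabilityTheory Filter
open scoped ENNReal Topology

set_option linter.unusedSectionVars false

variable {d : ℕ} {μ : Measure (Row d)} {ℓ : Fin d → ℤ}

lemma tendsto_dot_div {v : Fin d → ℝ} {s : Walk d} (hs : s ∈ HasDir ℓ v) (u : Fin d → ℝ) :
    Tendsto (fun n => dotR u (pos s n) / (lev ℓ (pos s n) : ℝ)) atTop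
      (𝓝 (∑ j, u j * v j)) := by
  refine (tendsto_finsetSum Finset.univ fun j _ => (hs j).const_mul (u j)).congr fun n => ?_
  simp only [dotR, Finset.sum_div, mul_div_assoc]

lemma mem_AR_of_dir {v : Fin d → ℝ} {s : Walk d} (hA : s ∈ Ap ℓ) (hs : s ∈ HasDir ℓ v)
    {u : Fin d → ℝ} (hu : 0 < ∑ j, u j * v j) : s ∈ AR u := by
  have hL : Tendsto (fun n => (lev ℓ (pos s n) : ℝ)) atTop atTop :=
    tendsto_intCast_atTop_iff.2 hA
  have h := (tendsto_dot_div hs u).pos_mul_atTop hu hL
  exact h.congr' ((hL.eventually_gt_atTop 0).mono fun n hn => div_mul_cancel₀ _ hn.ne')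

lemma sum_neg_mul (u v : Fin d → ℝ) : ∑ j, (-u) j * v j = -∑ j, u j * v j := by
  simp [← Finset.sum_neg_distrib]

/-- Increments forward of `k` are all at least `δ`. -/
def FutureMin (x : ℕ → ℝ) (δ : ℝ) (k : ℕ) : Prop := ∀ j, k < j → δ ≤ x j - x k

open scoped Classical in
lemma futureMin_count {x : ℕ → ℝ} {δ B : ℝ} (hδ : 0 ≤ δ) {n : ℕ} (hB : ∀ k < n, |x k| ≤ B)
    (hB0 : 0 ≤ B) :
    δ * (((Finset.range n).filter (FutureMin x δ)).card : ℝ) ≤ δ + 2 * B := by
  set F := (Finset.range n).filter (FutureMin x δ)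
  rcases F.eq_empty_or_nonempty with h | h
  · simp [h]; linarith
  -- the values at such times increase by steps `δ`
  have key : ∀ (c : ℕ) (G : Finset ℕ), G.card = c + 1 → (∀ k ∈ G, k < n ∧ FutureMin x δ k) →
      ∃ hi ∈ G, ∃ lo ∈ G, (∀ k ∈ G, k ≤ hi) ∧ δ * c ≤ x hi - x lo := by
    intro c
    induction c with
    | zero =>
      intro G hG _
      obtain ⟨a, rfl⟩ := Finset.card_eq_one.1 hG
      exact ⟨a, by simp, a, by simp, by simp, by simp⟩
    | succ c ih =>
      intro G hG hprop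
      have hne : G.Nonempty := Finset.card_pos.1 (by omega)
      set a := G.max' hne with ha
      have haG : a ∈ G := G.max'_mem hne
      obtain ⟨hi, hhi, lo, hlo, hmax, hle⟩ := ih (G.erase a)
        (by rw [Finset.card_erase_of_mem haG]; omega) fun k hk => hprop k (Finset.mem_of_mem_erase hk)
      have hlt : hi < a :=
        lt_of_le_of_ne (G.le_max' _ (Finset.mem_of_mem_erase hhi)) (Finset.ne_of_mem_erase hhi)
      refine ⟨a, haG, lo, Finset.mem_of_mem_erase hlo, fun k hk => G.le_max' k hk, ?_⟩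
      have := (hprop hi (Finset.mem_of_mem_erase hhi)).2 a hlt
      push_cast
      linarith
  obtain ⟨hi, hhi, lo, hlo, -, hle⟩ := key (F.card - 1) F
    (by have := Finset.card_pos.2 h; omega)
    fun k hk => by simpa [F] using hk
  have h1 := abs_le.1 (hB hi (by simpa [F] using (Finset.mem_filter.1 hhi).1))
  have h2 := abs_le.1 (hB lo (by simpa [F] using (Finset.mem_filter.1 hlo).1))
  have h3 : ((F.card - 1 : ℕ) : ℝ) = (F.card : ℝ) - 1 := by
    rw [Nat.cast_sub (Finset.card_pos.2 h)]; simp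
  rw [h3] at hle
  linarith

open scoped Classical in
lemma futureMin_freq {x : ℕ → ℝ} {δ : ℝ} (hδ : 0 < δ)
    (hx : Tendsto (fun k : ℕ => x k / k) atTop (𝓝 0)) :
    Tendsto (fun n : ℕ => (((Finset.range n).filter (FutureMin x δ)).card : ℝ) / n) atTop (𝓝 0) := by
  rw [Metric.tendsto_atTop]
  intro ε hε
  obtain ⟨N, hN⟩ := Metric.tendsto_atTop.1 hx (δ * ε / 4) (by positivity)
  set C := ∑ k ∈ Finset.range (N + 1), |x k| + δ
  obtain ⟨M, hM⟩ := exists_nat_gt (4 * C / (δ * ε))
  refine ⟨M + 1, fun n hn => ?_⟩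
  have hn0 : (0 : ℝ) < n := by
    have : 0 < n := by omega
    exact_mod_cast this
  have hC : 0 ≤ ∑ k ∈ Finset.range (N + 1), |x k| := Finset.sum_nonneg fun _ _ => abs_nonneg _
  have hb : ∀ k < n, |x k| ≤ ∑ k ∈ Finset.range (N + 1), |x k| + δ * ε / 4 * n := by
    intro k hk
    rcases lt_or_ge k (N + 1) with h | h
    · have := Finset.single_le_sum (f := fun k => |x k|) (fun _ _ => abs_nonneg _)
        (Finset.mem_range.2 h)
      have h0 : 0 ≤ δ * ε / 4 * n := by positivity
      linarith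
    · have h1 := hN k (by omega)
      rw [Real.dist_eq, sub_zero, abs_div, Nat.abs_cast,
        div_lt_iff₀ (by exact_mod_cast (show 0 < k by omega))] at h1
      have := mul_le_mul_of_nonneg_left (show (k : ℝ) ≤ n from Nat.cast_le.2 hk.le)
        (show 0 ≤ δ * ε / 4 by positivity)
      linarith
  have h1 := futureMin_count (x := x) hδ.le hb (by positivity)
  rw [Real.dist_eq, sub_zero, abs_of_nonneg (by positivity), div_lt_iff₀ hn0]
  rw [div_lt_iff₀ (by positivity)] at hM
  have hMn : (M : ℝ) * (δ * ε) ≤ n * (δ * ε) :=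
    mul_le_mul_of_nonneg_right (Nat.cast_le.2 (by omega)) (by positivity)
  simp only [C] at hM
  refine lt_of_mul_lt_mul_left ?_ hδ.le
  have hpe : 0 < δ * ε * n := by positivity
  linarith

variable [IsProbabilityMeasure μ]

lemma blk_crd_sum (u : Fin d → ℝ) (ω : ℕ → Blk ℓ) (k : ℕ) :
    dotR u (∑ t ∈ Finset.range k, endPt (ω t).1) =
      ∑ j, u j * ∑ t ∈ Finset.range k, ((endPt (ω t).1 j : ℤ) : ℝ) := by
  simp [dotR, Finset.sum_apply]

/-- No escape in a direction orthogonal to the asymptotic direction. -/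
theorem ortho_null (hp : annealed μ (Dp ℓ) ≠ 0) {v : Fin d → ℝ}
    (hlim : ∀ᵐ ω ∂seqLaw (blkPMF μ hp), ∀ j,
        Tendsto (fun k : ℕ => (∑ t ∈ Finset.range k, ((endPt (ω t).1 j : ℤ) : ℝ)) /
          ∑ t ∈ Finset.range k, (blkLev (ω t) : ℝ)) atTop (𝓝 (v j)) ∧
        Tendsto (fun k : ℕ => (lext (crd j) (ω k) : ℝ) / k) atTop (𝓝 0))
    {u : Fin d → ℝ} (hu : ∑ j, u j * v j = 0) : annealed μ (Ap ℓ ∩ AR u) = 0 := by
  classical
  obtain ⟨b0⟩ : Nonempty (Blk ℓ) := ⟨(blkPMF μ hp).support_nonempty.some⟩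
  let : Inhabited (Blk ℓ) := ⟨b0⟩
  set q := blkPMF μ hp
  set P := seqLaw q
  set X : (ℕ → Blk ℓ) → ℕ → ℝ := fun ω k => dotR u (∑ t ∈ Finset.range k, endPt (ω t).1) with hX
  have hXm : ∀ k, Measurable fun ω => X ω k := fun k =>
    measurable_of_head k (fun g => dotR u (∑ t : Fin k, endPt (g t).1))
      (fun ω => by simp [X, head, Finset.sum_range])
  -- the mean level gain
  have hzero : ∀ᵐ ω ∂P, Tendsto (fun k : ℕ => X ω k / k) atTop (𝓝 0) := by
    filter_upwards [hlim, seqLaw_lln q (fun b => (blkLev b : ℝ)) blkLev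
      (fun b => by rw [Nat.abs_cast]) (mean_blkLev hp)] with ω hω hH
    have h1 := (tendsto_finsetSum Finset.univ fun j _ => ((hω j).1).const_mul (u j)).mul hH
    rw [hu, zero_mul] at h1
    refine h1.congr' (eventually_atTop.2 ⟨1, fun k hk => ?_⟩)
    have hpos : (0 : ℝ) < ∑ t ∈ Finset.range k, (blkLev (ω t) : ℝ) :=
      Finset.sum_pos (fun t _ => by exact_mod_cast one_le_blkLev (ω t))
        ⟨0, Finset.mem_range.2 hk⟩
    simp only [X, blk_crd_sum, ← mul_div_assoc, ← Finset.sum_div]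
    rw [div_mul_cancel₀ _ hpos.ne']
  set F : ℝ → ℕ → Set (ℕ → Blk ℓ) := fun δ k => {ω | FutureMin (X ω) δ k}
  have hFm : ∀ δ k, MeasurableSet (F δ k) := by
    intro δ k
    have : F δ k = ⋂ j : ℕ, {ω | k < j → δ ≤ X ω j - X ω k} := by ext; simp [F, FutureMin]
    rw [this]
    refine MeasurableSet.iInter fun j => ?_
    by_cases hj : k < j
    · simpa [hj] using measurableSet_le measurable_const ((hXm j).sub (hXm k))
    · simp [hj]
  have hF : ∀ q0 : ℕ, ∀ k, P (F (1 / ((q0 : ℝ) + 1)) k) = 0 := by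
    intro q0
    set δ : ℝ := 1 / ((q0 : ℝ) + 1)
    have hδ : 0 < δ := by positivity
    have hshift : ∀ k, F δ k = (fun ω i => ω (k + i)) ⁻¹' F δ 0 := by
      intro k
      ext ω
      have e : ∀ i, X (fun t => ω (k + t)) i = X ω (k + i) - X ω k := fun i => by
        simp [X, Finset.sum_range_add, dotR_add]
      simp only [F, FutureMin, Set.mem_ofPred_eq, Set.mem_preimage, e, add_zero, sub_self, sub_zero]
      refine ⟨fun h j hj => h (k + j) (by omega), fun h j hj => ?_⟩
      have := h (j - k) (by omega)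
      rwa [Nat.add_sub_cancel' hj.le] at this
    have hη : ∀ k, P (F δ k) = P (F δ 0) := fun k => by
      rw [hshift k]; exact seqLaw_preimage_shift q k (hFm δ 0)
    suffices h0 : P (F δ 0) = 0 from fun k => (hη k).trans h0
    set f : ℕ → (ℕ → Blk ℓ) → ℝ≥0∞ := fun n ω =>
      (∑ k ∈ Finset.range n, (F δ k).indicator 1 ω) / n with hf
    have hfm : ∀ n, Measurable (f n) := fun n =>
      (Finset.measurable_sum _ fun k _ => measurable_one.indicator (hFm δ k)).div_const _
    have hfv : ∀ n ω, f n ω =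
        ((((Finset.range n).filter (FutureMin (X ω) δ)).card : ℕ) : ℝ≥0∞) / n := by
      intro n ω
      simp only [f, Set.indicator_apply, F, Set.mem_ofPred_eq, Pi.one_apply, Finset.sum_boole]
    have hint : ∀ n : ℕ, 1 ≤ n → ∫⁻ ω, f n ω ∂P = P (F δ 0) := by
      intro n hn
      simp only [f, div_eq_mul_inv]
      rw [lintegral_mul_const' _ _ (ENNReal.inv_ne_top.2 (Nat.cast_ne_zero.2 (by omega))),
        lintegral_finsetSum _ fun k _ => measurable_one.indicator (hFm δ k)]
      simp only [lintegral_indicator_one (hFm δ _), hη, Finset.sum_const, Finset.card_range,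
        nsmul_eq_mul]
      rw [mul_comm (n : ℝ≥0∞), mul_assoc,
        ENNReal.mul_inv_cancel (Nat.cast_ne_zero.2 (by omega)) (ENNReal.natCast_ne_top n), mul_one]
    have hle : ∀ n, f n ≤ᵐ[P] fun _ => 1 := fun n => ae_of_all _ fun ω => by
      rw [hfv]
      refine ENNReal.div_le_of_le_mul ?_
      rw [one_mul]
      exact Nat.cast_le.2 ((Finset.card_filter_le _ _).trans (Finset.card_range n).le)
    have hlim0 : ∀ᵐ ω ∂P, Tendsto (fun n => f n ω) atTop (𝓝 0) := by
      filter_upwards [hzero] with ω hω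
      have h1 := ENNReal.tendsto_ofReal (futureMin_freq hδ hω)
      rw [ENNReal.ofReal_zero] at h1
      refine h1.congr' (eventually_atTop.2 ⟨1, fun n hn => ?_⟩)
      dsimp only
      rw [hfv, ENNReal.ofReal_div_of_pos (by positivity), ENNReal.ofReal_natCast,
        ENNReal.ofReal_natCast]
    have h2 := tendsto_lintegral_of_dominated_convergence (μ := P) (fun _ => 1) hfm hle
      (by simp) hlim0
    rw [lintegral_zero] at h2
    exact tendsto_nhds_unique
      (tendsto_const_nhds.congr' (eventually_atTop.2 ⟨1, fun n hn => (hint n hn).symm⟩)) h2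
  set S := ⋃ q0 : ℕ, ⋃ k, F (1 / ((q0 : ℝ) + 1)) k
  have hSm : MeasurableSet S := MeasurableSet.iUnion fun q0 => MeasurableSet.iUnion fun k => hFm _ k
  have hS0 : P S = 0 := measure_iUnion_null fun q0 => measure_iUnion_null (hF q0)
  have hD : annealed μ (Dp ℓ ∩ AR u) = 0 := by
    refine measure_mono_null ?_ (measure_union_null (ae_decode hp) (decode_null hp hSm hS0))
    rintro s ⟨hs, hsu⟩
    by_cases hall : ∀ k, s ∈ blkEvent (head k (decode (ℓ := ℓ) s))
    swap
    · exact Or.inl ⟨hs, hall⟩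
    refine Or.inr ⟨hs, ?_⟩
    set ω := decode (ℓ := ℓ) s
    have hx : Tendsto (X ω) atTop atTop := by
      have h1 : Tendsto (fun k => (cat (head k ω)).length) atTop atTop :=
        tendsto_atTop_mono (fun k => by
          induction k with
          | zero => exact Nat.zero_le _
          | succ k ih =>
            rw [head_succ_cat, List.length_append]
            have := (ω k).2.length_pos
            simp only [id] at ih ⊢
            omega) tendsto_id
      refine (hsu.comp h1).congr fun k => ?_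
      simp only [Function.comp]
      rw [pos_of_mem_cyl (hall k).1 le_rfl, List.take_length, endPt_cat_head]
    obtain ⟨N, hN⟩ := eventually_atTop.1 (hx.eventually_ge_atTop 1)
    have hX0 : X ω 0 = 0 := by simp [X, dotR]
    -- the last minimum
    obtain ⟨a, haN, ha⟩ := Finset.exists_min_image (Finset.range (N + 1)) (X ω) ⟨0, by simp⟩
    have hz : X ω a ≤ 0 := hX0 ▸ ha 0 (by simp)
    set M := (Finset.range (N + 1)).filter fun k => X ω k ≤ X ω a
    have hM : M.Nonempty := ⟨a, Finset.mem_filter.2 ⟨haN, le_rfl⟩⟩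
    set k := M.max' hM
    obtain ⟨hkN, hka⟩ := Finset.mem_filter.1 (M.max'_mem hM)
    have hgap : ∀ j, k < j → 0 < X ω j - X ω k := by
      intro j hj
      by_contra hc
      rw [not_lt] at hc
      rcases lt_or_ge j (N + 1) with h | h
      · have hjM : j ∈ M := Finset.mem_filter.2 ⟨Finset.mem_range.2 h, by linarith⟩
        exact absurd (M.le_max' j hjM) (not_le.2 hj)
      · have := hN j (by omega)
        linarith
    obtain ⟨q0, hq0⟩ : ∃ q0 : ℕ, ∀ j ∈ Finset.Ioc k (max k N),
        1 / ((q0 : ℝ) + 1) ≤ X ω j - X ω k := by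
      rcases (Finset.Ioc k (max k N)).eq_empty_or_nonempty with h | h
      · exact ⟨0, by simp [h]⟩
      obtain ⟨j0, hj0, hmin⟩ := Finset.exists_min_image _ (fun j => X ω j - X ω k) h
      obtain ⟨q0, hq0⟩ := exists_nat_one_div_lt (hgap j0 (Finset.mem_Ioc.1 hj0).1)
      exact ⟨q0, fun j hj => hq0.le.trans (hmin j hj)⟩
    refine Set.mem_iUnion.2 ⟨q0, Set.mem_iUnion.2 ⟨k, fun j hj => ?_⟩⟩
    rcases le_or_gt j (max k N) with h | h
    · exact hq0 j (Finset.mem_Ioc.2 ⟨hj, h⟩)
    · have := hN j (by omega)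
      have h1 : 1 / ((q0 : ℝ) + 1) ≤ 1 := by
        rw [div_le_one (by positivity)]
        linarith [Nat.cast_nonneg (α := ℝ) q0]
      linarith
  by_contra hne
  refine annealed_Dp_inter_ne_zero ((measurableSet_Ap ℓ).inter (measurableSet_AR u))
    Set.inter_subset_left
    (fun s hs a => ⟨(shift_mem_Ap_iff s a).2 hs.1, (shift_mem_AR u s a).2 hs.2⟩) hne ?_
  exact measure_mono_null (fun s (hs : s ∈ Dp ℓ ∩ (Ap ℓ ∩ AR u)) =>
    show s ∈ Dp ℓ ∩ AR u from ⟨hs.1, hs.2.2⟩) hD

/-- Almost surely the walk goes off along one of the two halves of a fixed line. -/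
theorem exists_line (he : IsElliptic μ) (hA : annealed μ (Ap ℓ) ≠ 0) :
    ∃ v : Fin d → ℝ, ∑ i, (ℓ i : ℝ) * v i = 1 ∧
      annealed μ ((Ap ℓ ∩ HasDir ℓ v) ∪ (Ap (-ℓ) ∩ HasDir (-ℓ) (-v)))ᶜ = 0 ∧
      ∀ u : Fin d → ℝ, ∑ i, u i * v i = 0 → annealed μ (AR u) = 0 := by
  have hp := Dp_ne_zero_of_Ap hA
  obtain ⟨v, hv, hdir, hlim⟩ := blocks_dir he hp
  have hneg : (fun i => ((-ℓ) i : ℝ)) = -fun i => (ℓ i : ℝ) := funext fun i => by simp
  have hU : annealed μ (Ap ℓ ∪ Ap (-ℓ))ᶜ = 0 := by
    have h := union_law he (u := fun i => (ℓ i : ℝ)) (by rwa [AR_intCast])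
    rwa [← hneg, AR_intCast, AR_intCast] at h
  have hback : annealed μ (Ap (-ℓ) \ HasDir (-ℓ) (-v)) = 0 ∧
      ∀ u : Fin d → ℝ, ∑ i, u i * v i = 0 → annealed μ (Ap (-ℓ) ∩ AR u) = 0 := by
    by_cases hm : annealed μ (Ap (-ℓ)) = 0
    · exact ⟨measure_mono_null Set.sdiff_subset hm,
        fun u _ => measure_mono_null Set.inter_subset_left hm⟩
    have hpm := Dp_ne_zero_of_Ap hm
    obtain ⟨v', hv', hdir', hlim'⟩ := blocks_dir he hpm
    have hv'' : ∑ i, (ℓ i : ℝ) * v' i = -1 := by
      rw [← hv', ← Finset.sum_neg_distrib]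
      exact Finset.sum_congr rfl fun i _ => by simp
    have e := opposite he hp hpm hv hv'' hlim hlim'
    subst e
    exact ⟨hdir', fun u hu => ortho_null hpm hlim' (by simp [hu])⟩
  refine ⟨v, hv, measure_mono_null ?_ (measure_union_null hU (measure_union_null hdir hback.1)),
    fun u hu => measure_mono_null ?_ (measure_union_null hU
      (measure_union_null (ortho_null hp hlim hu) (hback.2 u hu)))⟩
  · intro s hs
    simp only [Set.mem_compl_iff, Set.mem_union, Set.mem_inter_iff, Set.mem_sdiff, not_or,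
      not_and] at hs ⊢
    tauto
  · intro s hs
    simp only [Set.mem_compl_iff, Set.mem_union, Set.mem_inter_iff]
    tauto

/-- What follows for all real directions. -/
theorem line_consequences {v : Fin d → ℝ}
    (hline : annealed μ ((Ap ℓ ∩ HasDir ℓ v) ∪ (Ap (-ℓ) ∩ HasDir (-ℓ) (-v)))ᶜ = 0)
    {u : Fin d → ℝ} (hu : 0 < ∑ i, u i * v i) :
    annealed μ (AR u) = annealed μ (Ap ℓ) ∧ annealed μ (AR u ∪ AR (-u)) = 1 := by
  have hu2 : 0 < ∑ i, (-u) i * (-v) i := by simpa using hu
  have hexcl : ∀ s : Walk d, s ∈ AR u → s ∈ AR (-u) → False := by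
    intro s h1 h2
    rw [AR_neg] at h2
    obtain ⟨n, e1, e2⟩ := ((h1.eventually_ge_atTop 1).and (h2.eventually_le_atBot 0)).exists
    linarith
  constructor
  · refine le_antisymm ?_ ?_
    · refine le_trans (measure_mono (t := Ap ℓ ∪
        ((Ap ℓ ∩ HasDir ℓ v) ∪ (Ap (-ℓ) ∩ HasDir (-ℓ) (-v)))ᶜ) fun s hs => ?_)
        ((measure_union_le _ _).trans (by rw [hline, add_zero]))
      by_cases hc : s ∈ (Ap ℓ ∩ HasDir ℓ v) ∪ (Ap (-ℓ) ∩ HasDir (-ℓ) (-v))
      · rcases hc with h | h
        · exact Or.inl h.1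
        · exact absurd (mem_AR_of_dir h.1 h.2 hu2) (fun h' => hexcl s hs h')
      · exact Or.inr hc
    · refine le_trans (measure_mono (t := AR u ∪
        ((Ap ℓ ∩ HasDir ℓ v) ∪ (Ap (-ℓ) ∩ HasDir (-ℓ) (-v)))ᶜ) fun s hs => ?_)
        ((measure_union_le _ _).trans (by rw [hline, add_zero]))
      by_cases hc : s ∈ (Ap ℓ ∩ HasDir ℓ v) ∪ (Ap (-ℓ) ∩ HasDir (-ℓ) (-v))
      · rcases hc with h | h
        · exact Or.inl (mem_AR_of_dir h.1 h.2 hu)
        · exfalso
          have h1 := Filter.tendsto_atTop.1 hs 1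
          have h2 := Filter.tendsto_atTop.1 h.1 1
          obtain ⟨n, e1, e2⟩ := (h1.and h2).exists
          rw [lev_neg_left] at e2
          omega
      · exact Or.inr hc
  · refine (prob_compl_eq_zero_iff ((measurableSet_AR u).union (measurableSet_AR (-u)))).1
      (measure_mono_null ?_ hline)
    intro s hs hc
    rcases hc with h | h
    · exact hs (Or.inl (mem_AR_of_dir h.1 h.2 hu))
    · exact hs (Or.inr (mem_AR_of_dir h.1 h.2 hu2))

/-- Zero-one in one integer direction gives it in every real direction. -/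
theorem zero_one_transfer (he : IsElliptic μ) (hA : annealed μ (Ap ℓ) = 1) (u : Fin d → ℝ) :
    annealed μ (AR u) = 0 ∨ annealed μ (AR u) = 1 := by
  obtain ⟨v, -, hline, hortho⟩ := exists_line he (ℓ := ℓ) (by rw [hA]; exact one_ne_zero)
  rcases lt_trichotomy (∑ i, u i * v i) 0 with h | h | h
  · left
    obtain ⟨h1, h2⟩ := line_consequences hline (u := -u) (by rw [sum_neg_mul]; linarith)
    have hone : annealed μ (AR (-u)) = 1 := h1.trans hA
    refine measure_mono_null (fun s hs => ?_)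
      ((prob_compl_eq_zero_iff (measurableSet_AR (-u))).2 hone)
    intro hc
    rw [AR_neg] at hc
    obtain ⟨n, e1, e2⟩ :=
      ((Filter.Tendsto.eventually_ge_atTop hs 1).and (hc.eventually_le_atBot 0)).exists
    linarith
  · exact Or.inl (hortho u h)
  · exact Or.inr ((line_consequences hline h).1.trans hA)

end Vale.Agent.P147
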