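import Vale.Agent.P147.Dir.LLN

/-!
The two asymptotic directions are opposite.
-/

noncomputable section

namespace Vale.Agent.P147

open MeasureTheory ProbabilityTheory Filter
open scoped ENNReal Topology

set_option linter.unusedSectionVars false

variable {d : ℕ} {μ : Measure (Row d)} {ℓ : Fin d → ℤ}

lemma lev_crd (w x : Fin d → ℤ) : (lev w x : ℝ) = ∑ j, (w j : ℝ) * (x j : ℝ) := by simp [lev]

/-- A bound for `|lev w|` inside a block. -/
def extw (w : Fin d → ℤ) (b : Blk ℓ) : ℤ := 2 * ∑ j, |w j| * (lext (crd j) b : ℤ)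

lemma two_abs_lev_le (w : Fin d → ℤ) (b : Blk ℓ) {i : ℕ} (hi : i ≤ b.1.length) :
    2 * |lev w (endPt (b.1.take i))| ≤ extw w b := by
  unfold extw
  refine mul_le_mul_of_nonneg_left ?_ (by norm_num)
  show |∑ j, w j * endPt (b.1.take i) j| ≤ _
  refine (Finset.abs_sum_le_sum_abs _ _).trans (Finset.sum_le_sum fun j _ => ?_)
  rw [abs_mul]
  exact mul_le_mul_of_nonneg_left (abs_psi_le_ext (ψ := crd j) b hi) (abs_nonneg _)

/-- The trace of the blocks stays above `-C` for `lev w`, with margin. -/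
def Drift (ℓ : Fin d → ℤ) (w : Fin d → ℤ) (C : ℕ) : Set (ℕ → Blk ℓ) :=
  {ω | ∀ i, -(C : ℤ) ≤ (∑ t ∈ Finset.range i, lev w (endPt (ω t).1)) - extw w (ω i)}

lemma measurableSet_drift (ℓ w : Fin d → ℤ) (C : ℕ) : MeasurableSet (Drift ℓ w C) := by
  have : Drift ℓ w C = ⋂ i : ℕ, {ω : ℕ → Blk ℓ |
      -(C : ℤ) ≤ (∑ t ∈ Finset.range i, lev w (endPt (ω t).1)) - extw w (ω i)} := by
    ext; simp [Drift]
  rw [this]
  refine MeasurableSet.iInter fun i => measurableSet_of_head (i + 1) fun ω η h hω => ?_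
  have h1 : ∀ t ≤ i, ω t = η t := fun t ht => congrFun h ⟨t, Nat.lt_succ_of_le ht⟩
  simp only [Set.mem_ofPred_eq] at hω ⊢
  rw [← h1 i le_rfl, Finset.sum_congr rfl fun t ht =>
    by rw [← h1 t (Finset.mem_range.1 ht).le]]
  exact hω

lemma exists_drift {q : PMF (Blk ℓ)} {v : Fin d → ℝ} {w : Fin d → ℤ}
    (hw : 0 < ∑ j, (w j : ℝ) * v j)
    (hlim : ∀ᵐ ω ∂seqLaw q, ∀ j,
        Tendsto (fun k : ℕ => (∑ t ∈ Finset.range k, ((endPt (ω t).1 j : ℤ) : ℝ)) /
          ∑ t ∈ Finset.range k, (blkLev (ω t) : ℝ)) atTop (𝓝 (v j)) ∧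
        Tendsto (fun k : ℕ => (lext (crd j) (ω k) : ℝ) / k) atTop (𝓝 0)) :
    ∃ C, (3 : ℝ≥0∞) / 4 ≤ seqLaw q (Drift ℓ w C) := by
  have hae : ∀ᵐ ω ∂seqLaw q, ω ∈ ⋃ C, Drift ℓ w C := by
    filter_upwards [hlim] with ω hω
    set g : ℕ → ℤ := fun i => (∑ t ∈ Finset.range i, lev w (endPt (ω t).1)) - extw w (ω i) with hg
    set c := ∑ j, (w j : ℝ) * v j
    have h1 : Tendsto (fun k : ℕ => ((∑ t ∈ Finset.range k, lev w (endPt (ω t).1) : ℤ) : ℝ) /
        ∑ t ∈ Finset.range k, (blkLev (ω t) : ℝ)) atTop (𝓝 c) := by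
      refine (tendsto_finsetSum Finset.univ fun j _ => ((hω j).1).const_mul (w j : ℝ)).congr
        fun k => ?_
      simp only [← mul_div_assoc, ← Finset.sum_div, Int.cast_sum, lev_crd, Finset.mul_sum]
      rw [Finset.sum_comm]
    have h2 : Tendsto (fun k : ℕ => (extw w (ω k) : ℝ) / k) atTop (𝓝 0) := by
      have h3 := (tendsto_finsetSum Finset.univ fun j _ =>
        ((hω j).2).const_mul (|(w j : ℝ)|)).const_mul 2
      simp only [mul_zero, Finset.sum_const_zero] at h3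
      refine h3.congr fun k => ?_
      simp only [extw, ← mul_div_assoc, ← Finset.sum_div]
      push_cast
      rfl
    have hpos : ∀ᶠ k in atTop, 0 ≤ g k := by
      filter_upwards [h1.eventually_const_lt (half_lt_self hw),
        h2.eventually_lt_const (half_pos hw), eventually_ge_atTop 1] with k e1 e2 e3
      have hk : (0 : ℝ) < k := by positivity
      have hH : (k : ℝ) ≤ ∑ t ∈ Finset.range k, (blkLev (ω t) : ℝ) := by
        calc (k : ℝ) = ∑ _t ∈ Finset.range k, (1 : ℝ) := by simp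
          _ ≤ _ := Finset.sum_le_sum fun t _ => by exact_mod_cast one_le_blkLev (ω t)
      rw [lt_div_iff₀ (hk.trans_le hH)] at e1
      rw [div_lt_iff₀ hk] at e2
      have e4 := mul_le_mul_of_nonneg_left hH (half_pos hw).le
      rw [← Int.cast_nonneg_iff (R := ℝ), hg]
      push_cast at e1 ⊢
      linarith
    obtain ⟨N, hN⟩ := eventually_atTop.1 hpos
    refine Set.mem_iUnion.2 ⟨(Finset.range N).sup fun i => (g i).natAbs, fun i => ?_⟩
    show _ ≤ g i
    rcases lt_or_ge i N with h | h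
    · have := Finset.le_sup (f := fun i => (g i).natAbs) (Finset.mem_range.2 h)
      omega
    · have := hN i h; omega
  have h1 : (3 : ℝ≥0∞) / 4 < ⨆ C, seqLaw q (Drift ℓ w C) := by
    have hmono : Monotone fun C => Drift ℓ w C := fun C C' (h : C ≤ C') ω hω i => by
      have h1 : -(C : ℤ) ≤ (∑ t ∈ Finset.range i, lev w (endPt (ω t).1)) - extw w (ω i) := hω i
      have h2 : (C : ℤ) ≤ C' := Nat.cast_le.2 h
      omega
    rw [← hmono.measure_iUnion,
      (prob_compl_eq_zero_iff (MeasurableSet.iUnion fun C => measurableSet_drift ℓ w C)).1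
        (mem_ae_iff.1 hae)]
    rw [ENNReal.div_lt_iff (Or.inl (by norm_num)) (Or.inl (by norm_num)), one_mul]
    norm_num
  obtain ⟨C, hC⟩ := lt_iSup_iff.1 h1
  exact ⟨C, hC.le⟩

/-- An integer vector positive on both of two vectors. -/
lemma exists_int_pos {v v' : Fin d → ℝ} (hv : ∑ i, (ℓ i : ℝ) * v i = 1)
    (hv' : ∑ i, (ℓ i : ℝ) * v' i = -1) (hne : v' ≠ -v) :
    ∃ w : Fin d → ℤ, 0 < ∑ i, (w i : ℝ) * v i ∧ 0 < ∑ i, (w i : ℝ) * v' i := by
  set u := fun i => v i + v' i with hu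
  have hU : 0 < ∑ i, u i * u i := by
    obtain ⟨i, hi⟩ : ∃ i, u i ≠ 0 := by
      by_contra hc
      push Not at hc
      exact hne (funext fun i => by have := hc i; simp only [u] at this; simp; linarith)
    exact Finset.sum_pos' (fun j _ => mul_self_nonneg _) ⟨i, Finset.mem_univ i, mul_self_pos.2 hi⟩
  set a := ∑ i, u i * v i with ha
  set b := ∑ i, u i * v' i with hb
  have hab : a + b = ∑ i, u i * u i := by
    simp only [a, b, ← Finset.sum_add_distrib, ← mul_add, u]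
  set r := fun i => u i + (b - a) / 2 * (ℓ i : ℝ) with hr
  have e : ∀ x : Fin d → ℝ, ∑ i, r i * x i =
      ∑ i, u i * x i + (b - a) / 2 * ∑ i, (ℓ i : ℝ) * x i := fun x => by
    simp only [r, add_mul, Finset.sum_add_distrib, Finset.mul_sum, mul_assoc]
  have r1 : 0 < ∑ i, r i * v i := by rw [e, hv, ← ha]; linarith
  have r2 : 0 < ∑ i, r i * v' i := by rw [e, hv', ← hb]; linarith
  have key : ∀ x : Fin d → ℝ, 0 < ∑ i, r i * x i →
      ∀ᶠ Q : ℕ in atTop, 0 < ∑ i, ((round ((Q : ℝ) * r i) : ℤ) : ℝ) * x i := by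
    intro x hx
    obtain ⟨Q, hQ⟩ := exists_nat_gt ((∑ i, |x i|) / ∑ i, r i * x i)
    refine eventually_atTop.2 ⟨Q, fun n hn => ?_⟩
    rw [div_lt_iff₀ hx] at hQ
    have h1 : (∑ i, ((round ((n : ℝ) * r i) : ℤ) : ℝ) * x i) =
        (n : ℝ) * ∑ i, r i * x i +
          ∑ i, (((round ((n : ℝ) * r i) : ℤ) : ℝ) - n * r i) * x i := by
      rw [Finset.mul_sum, ← Finset.sum_add_distrib]
      exact Finset.sum_congr rfl fun i _ => by ring
    have h2 : |∑ i, (((round ((n : ℝ) * r i) : ℤ) : ℝ) - n * r i) * x i| ≤ ∑ i, |x i| :=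
      (Finset.abs_sum_le_sum_abs _ _).trans (Finset.sum_le_sum fun i _ => by
        rw [abs_mul]
        refine mul_le_of_le_one_left (abs_nonneg _) ?_
        rw [abs_sub_comm]
        exact (abs_sub_round _).trans (by norm_num))
    have h3 : (Q : ℝ) * ∑ i, r i * x i ≤ (n : ℝ) * ∑ i, r i * x i :=
      mul_le_mul_of_nonneg_right (Nat.cast_le.2 hn) hx.le
    rw [h1]
    linarith [(abs_le.1 h2).1]
  obtain ⟨Q, hQ1, hQ2⟩ := ((key v r1).and (key v' r2)).exists
  exact ⟨_, hQ1, hQ2⟩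

variable [IsProbabilityMeasure μ]

/-- The asymptotic directions on the two escape events are opposite. -/
theorem opposite (he : IsElliptic μ) (hp : annealed μ (Dp ℓ) ≠ 0)
    (hm : annealed μ (Dp (-ℓ)) ≠ 0) {v v' : Fin d → ℝ}
    (hv : ∑ i, (ℓ i : ℝ) * v i = 1) (hv' : ∑ i, (ℓ i : ℝ) * v' i = -1)
    (hlim : ∀ᵐ ω ∂seqLaw (blkPMF μ hp), ∀ j,
        Tendsto (fun k : ℕ => (∑ t ∈ Finset.range k, ((endPt (ω t).1 j : ℤ) : ℝ)) /
          ∑ t ∈ Finset.range k, (blkLev (ω t) : ℝ)) atTop (𝓝 (v j)) ∧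
        Tendsto (fun k : ℕ => (lext (crd j) (ω k) : ℝ) / k) atTop (𝓝 0))
    (hlim' : ∀ᵐ ω ∂seqLaw (blkPMF μ hm), ∀ j,
        Tendsto (fun k : ℕ => (∑ t ∈ Finset.range k, ((endPt (ω t).1 j : ℤ) : ℝ)) /
          ∑ t ∈ Finset.range k, (blkLev (ω t) : ℝ)) atTop (𝓝 (v' j)) ∧
        Tendsto (fun k : ℕ => (lext (crd j) (ω k) : ℝ) / k) atTop (𝓝 0)) :
    v' = -v := by
  classical
  by_contra hne
  obtain ⟨w, hw, hw'⟩ := exists_int_pos hv hv' hne
  -- a horizontal vector not orthogonal to `w`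
  obtain ⟨κ, hκ, hκw⟩ : ∃ κ : Fin d → ℤ, lev ℓ κ = 0 ∧ 0 < lev w κ := by
    obtain ⟨i0, hi0⟩ := Function.ne_iff.1 (ne_zero_of_Dp hp)
    simp only [Pi.zero_apply] at hi0
    suffices h : ∃ κ : Fin d → ℤ, lev ℓ κ = 0 ∧ lev w κ ≠ 0 by
      obtain ⟨κ, h1, h2⟩ := h
      rcases lt_or_gt_of_ne h2 with h3 | h3
      · exact ⟨-κ, by rw [map_neg, h1, neg_zero], by rw [map_neg]; omega⟩
      · exact ⟨κ, h1, h3⟩
    by_contra hc
    push Not at hc
    have hall : ∀ j, (ℓ i0 : ℝ) * w j = (ℓ j : ℝ) * w i0 := by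
      intro j
      have h := hc (ℓ i0 • Pi.single j 1 - ℓ j • Pi.single i0 1)
        (by simp [lev, Pi.single_apply, mul_sub, Finset.sum_sub_distrib, mul_comm])
      simp [lev, Pi.single_apply, mul_sub, Finset.sum_sub_distrib] at h
      have h' : ℓ i0 * w j = ℓ j * w i0 := by linarith
      exact_mod_cast h'
    have e : ∀ x : Fin d → ℝ, (ℓ i0 : ℝ) * ∑ j, (w j : ℝ) * x j =
        (w i0 : ℝ) * ∑ j, (ℓ j : ℝ) * x j := fun x => by
      rw [Finset.mul_sum, Finset.mul_sum]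
      refine Finset.sum_congr rfl fun j _ => ?_
      rw [← mul_assoc, hall j]; ring
    have e1 := e v
    have e2 := e v'
    rw [hv] at e1
    rw [hv'] at e2
    have e3 : (ℓ i0 : ℝ) * (∑ j, (w j : ℝ) * v j + ∑ j, (w j : ℝ) * v' j) = 0 := by
      rw [mul_add, e1, e2]; ring
    rcases mul_eq_zero.1 e3 with h | h
    · exact hi0 (by exact_mod_cast h)
    · linarith
  obtain ⟨C, hC⟩ := exists_drift hw hlim
  obtain ⟨C', hC'⟩ := exists_drift hw' hlim'
  set r : ℤ := (C : ℤ) + C' + 1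
  refine exclusive_of_avoid he hp hm (r • κ) (by rw [map_zsmul, hκ]; simp) ?_
  have key : ∀ n, (1 : ℝ≥0∞) / 2 ≤ pairLaw (fwd μ hp) (bwd μ hm)
      (AvoidUpTo (lev ℓ) (fwd μ hp) (bwd μ hm) (r • κ) n) := by
    intro n
    refine le_trans ?_ (measure_mono (μ := pairLaw (fwd μ hp) (bwd μ hm))
      (s := Drift ℓ w C ×ˢ Drift (-ℓ) w C') ?_)
    · rw [pairLaw, Measure.prod_prod]
      refine le_trans ?_ (mul_le_mul' hC hC')
      have e : (3 : ℝ≥0∞) / 4 * (3 / 4) = 9 / 16 := by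
        rw [← ENNReal.toReal_eq_toReal_iff' (by finiteness) (by finiteness)]
        simp [ENNReal.toReal_mul, ENNReal.toReal_div]; norm_num
      rw [e, ← ENNReal.toReal_le_toReal (by finiteness) (by finiteness)]
      simp [ENNReal.toReal_div]; norm_num
    rintro ⟨ω, η⟩ ⟨hω, hη⟩ i hi j hj ⟨a, ha, b, hb, he⟩
    simp only [fwd, Finset.mem_image, mem_visited] at ha
    obtain ⟨_, ⟨i', hi', rfl⟩, rfl⟩ := ha
    simp only [bwd, mem_visited] at hb
    obtain ⟨j', hj', rfl⟩ := hb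
    have h := congrArg (lev w) he
    simp only [Side.S, fwd, bwd, map_add, map_sub, map_sum, map_neg, map_zsmul,
      Finset.sum_neg_distrib, smul_eq_mul] at h
    have a1 := hω i
    have a2 := hη j
    have b1 := two_abs_lev_le w (ω i) hi'
    have b2 := two_abs_lev_le w (ω i) (le_refl (ω i).1.length)
    have b3 := two_abs_lev_le w (η j) hj'
    rw [List.take_length] at b2
    have c1 := abs_le.1 (le_refl |lev w (endPt ((ω i).1.take i'))|)
    have c2 := abs_le.1 (le_refl |lev w (endPt (ω i).1)|)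
    have c3 := abs_le.1 (le_refl |lev w (endPt ((η j).1.take j'))|)
    have d1 : r * 1 ≤ r * lev w κ := mul_le_mul_of_nonneg_left hκw (by positivity)
    simp only [r] at d1 h
    linarith [c1.1, c1.2, c2.1, c2.2, c3.1, c3.2]
  refine top_le_iff.1 (le_trans (le_of_eq ?_) (ENNReal.tsum_le_tsum key))
  exact (ENNReal.tsum_const_eq_top_of_ne_zero (by norm_num)).symm

end Vale.Agent.P147
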