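import Vale.Agent.P147.Dir.Line

/-!
Laws with the symmetries of the coordinate axes have no directional escape.
-/

noncomputable section

namespace Vale.Agent.P147

open MeasureTheory ProbabilityTheory Filter
open scoped ENNReal Topology

set_option linter.unusedSectionVars false

variable {d : ℕ} {μ : Measure (Row d)}

/-- A row seen through a permutation of the steps. -/
def rowMap (σ : Equiv.Perm (Dir d)) (p : Row d) : Row d :=
  ⟨p.1 ∘ σ, fun e => p.2.1 (σ e), (Equiv.sum_comp σ p.1).trans p.2.2⟩

lemma measurable_rowMap (σ : Equiv.Perm (Dir d)) : Measurable (rowMap σ) :=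
  have h : Measurable fun p : Row d => p.1 ∘ σ :=
    measurable_pi_lambda _ fun e => (measurable_pi_apply (σ e)).comp measurable_subtype_coe
  h.subtype_mk

lemma map_rowMap_eq (σ : Equiv.Perm (Dir d))
    (h : μ.map (fun p : Row d => p.1 ∘ σ) = μ.map Subtype.val) : μ.map (rowMap σ) = μ := by
  refine Measure.ext fun S hS => ?_
  rw [Measure.map_apply (measurable_rowMap σ) hS]
  obtain ⟨T, hT, rfl⟩ := hS
  have hm : Measurable fun p : Row d => p.1 ∘ σ :=
    measurable_pi_lambda _ fun e => (measurable_pi_apply (σ e)).comp measurable_subtype_coe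
  have := congrArg (fun m : Measure (Dir d → ℝ) => m T) h
  simp only [Measure.map_apply hm hT, Measure.map_apply measurable_subtype_coe hT] at this
  exact this

/-- An environment seen through a symmetry of the lattice. -/
def envMap (σ : Equiv.Perm (Dir d)) (L : (Fin d → ℤ) →+ (Fin d → ℤ)) (ω : Env d) : Env d :=
  fun x => rowMap σ (ω (L x))

lemma measurable_envMap (σ : Equiv.Perm (Dir d)) (L : (Fin d → ℤ) →+ (Fin d → ℤ)) :
    Measurable (envMap σ L) :=
  measurable_pi_lambda _ fun x => (measurable_rowMap σ).comp (measurable_pi_apply (L x))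

lemma qw_envMap {σ : Equiv.Perm (Dir d)} {L : (Fin d → ℤ) →+ (Fin d → ℤ)}
    (hL : ∀ e, dirVec (σ e) = L (dirVec e)) (ω : Env d) (x : Fin d → ℤ) (l : List (Dir d)) :
    qw ω (L x) (l.map σ) = qw (envMap σ L ω) x l := by
  induction l generalizing x with
  | nil => rfl
  | cons e l ih =>
    simp only [List.map_cons, qw, hL, ← map_add, ih]
    rfl

variable [IsProbabilityMeasure μ]

/-- The annealed law is invariant under the symmetries of the one-site law. -/
theorem AR_symm (σ : Equiv.Perm (Dir d)) (hσ : Function.Involutive σ)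
    (L : (Fin d → ℤ) →+ (Fin d → ℤ)) (hLi : Function.Involutive L)
    (hL : ∀ e, dirVec (σ e) = L (dirVec e))
    (hμ : μ.map (fun p : Row d => p.1 ∘ σ) = μ.map Subtype.val) {u u' : Fin d → ℝ}
    (hu : ∀ x, dotR u (L x) = dotR u' x) : annealed μ (AR u) = annealed μ (AR u') := by
  classical
  have henv : (envLaw μ).map (envMap σ L) = envLaw μ := by
    refine Measure.eq_infinitePi _ fun s t ht => ?_
    rw [Measure.map_apply (measurable_envMap σ L)
      (MeasurableSet.pi s.countable_toSet fun i _ => ht i)]
    have : envMap σ L ⁻¹' (s : Set _).pi t =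
        ((s.map hLi.toPerm.toEmbedding : Finset _) : Set _).pi
          (fun z => rowMap σ ⁻¹' t (L z)) := by
      ext ω
      simp only [Set.mem_preimage, Set.mem_pi, Finset.coe_map, Set.forall_mem_image, envMap,
        Equiv.coe_toEmbedding, Function.Involutive.coe_toPerm, hLi _, Finset.mem_coe]
    rw [this, envLaw, Measure.infinitePi_pi _ fun z _ => measurable_rowMap σ (ht _),
      Finset.prod_map]
    refine Finset.prod_congr rfl fun x _ => ?_
    simp only [Equiv.coe_toEmbedding, Function.Involutive.coe_toPerm, hLi x]
    rw [← Measure.map_apply (measurable_rowMap σ) (ht x), map_rowMap_eq σ hμ]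
  have hW : ∀ l, W μ (l.map σ) = W μ l := by
    intro l
    have e : ∀ ω, qw ω 0 (l.map σ) = qw (envMap σ L ω) 0 l := fun ω => by
      rw [← qw_envMap hL, map_zero]
    simp only [W, e]
    conv_rhs => rw [← henv]
    rw [lintegral_map (measurable_qw 0 l) (measurable_envMap σ L)]
  set Φ : Walk d → Walk d := fun s i => σ (s i)
  have hΦ : Measurable Φ :=
    measurable_pi_lambda _ fun i => (measurable_of_countable σ).comp (measurable_pi_apply i)
  have hmap : (annealed μ).map Φ = annealed μ := by
    have : IsProbabilityMeasure ((annealed μ).map Φ) :=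
      Measure.isProbabilityMeasure_map hΦ.aemeasurable
    refine ext_of_cyl fun l => ?_
    have e : Φ ⁻¹' cyl l = cyl (l.map σ) := by
      ext s
      simp only [Φ, cyl, Set.mem_preimage, Set.mem_ofPred_eq, List.length_map, List.getElem_map]
      refine forall_congr' fun i => forall_congr' fun hi => ?_
      exact ⟨fun h => by rw [← h, hσ], fun h => by rw [h, hσ]⟩
    rw [Measure.map_apply hΦ (measurableSet_cyl l), e, annealed_cyl, annealed_cyl, hW]
  have hpos : ∀ s n, pos (Φ s) n = L (pos s n) := fun s n => by
    simp [pos, Φ, hL]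
  conv_lhs => rw [← hmap, Measure.map_apply hΦ (measurableSet_AR u)]
  congr 1
  ext s
  simp [AR, hpos, hu]

/-- Reverse the axis `k`. -/
def flipDir (k : Fin d) (e : Dir d) : Dir d := (e.1, if e.1 = k then !e.2 else e.2)

/-- Exchange the axes `j` and `k`. -/
def swapDir (j k : Fin d) (e : Dir d) : Dir d := (Equiv.swap j k e.1, e.2)

lemma flipDir_inv (k : Fin d) : Function.Involutive (flipDir k) := by
  rintro ⟨i, b⟩
  by_cases h : i = k <;> simp [flipDir, h]

lemma swapDir_inv (j k : Fin d) : Function.Involutive (swapDir j k) := by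
  rintro ⟨i, b⟩
  simp [swapDir]

/-- Negate the coordinate `k`. -/
def flipVec {R : Type*} [Neg R] (k : Fin d) (x : Fin d → R) : Fin d → R :=
  fun i => if i = k then -x i else x i

/-- Negation of a coordinate as a homomorphism. -/
def flipHom (k : Fin d) : (Fin d → ℤ) →+ (Fin d → ℤ) where
  toFun := flipVec k
  map_zero' := by funext i; simp [flipVec]
  map_add' x y := by
    funext i
    by_cases h : i = k <;> simp [flipVec, h, add_comm]

/-- Exchange of two coordinates as a homomorphism. -/
def swapHom (j k : Fin d) : (Fin d → ℤ) →+ (Fin d → ℤ) where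
  toFun x := x ∘ Equiv.swap j k
  map_zero' := rfl
  map_add' _ _ := rfl

lemma AR_flip (k : Fin d) (h : μ.map (fun p : Row d => p.1 ∘ flipDir k) = μ.map Subtype.val)
    (u : Fin d → ℝ) : annealed μ (AR u) = annealed μ (AR (flipVec k u)) := by
  refine AR_symm ((flipDir_inv k).toPerm) (flipDir_inv k) (flipHom k) ?_ ?_ h ?_
  · intro x; funext i
    show flipVec k (flipVec k x) i = x i
    by_cases hi : i = k <;> simp [flipVec, hi]
  · rintro ⟨i, b⟩
    funext m
    show dirVec (flipDir k (i, b)) m = flipVec k (dirVec (i, b)) m
    rcases eq_or_ne i k with hi | hi <;> rcases eq_or_ne m i with hm | hm <;> cases b <;>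
      simp_all [flipDir, flipVec, dirVec]
  · intro x
    simp only [dotR]
    refine Finset.sum_congr rfl fun i _ => ?_
    show u i * ((flipVec k x i : ℤ) : ℝ) = flipVec k u i * (x i : ℝ)
    by_cases hi : i = k <;> simp [flipVec, hi]

lemma AR_swap (j k : Fin d) (h : μ.map (fun p : Row d => p.1 ∘ swapDir j k) = μ.map Subtype.val)
    (u : Fin d → ℝ) : annealed μ (AR u) = annealed μ (AR (u ∘ Equiv.swap j k)) := by
  refine AR_symm ((swapDir_inv j k).toPerm) (swapDir_inv j k) (swapHom j k) ?_ ?_ h ?_
  · intro x; funext i; simp [swapHom]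
  · rintro ⟨i, b⟩
    funext m
    show dirVec (swapDir j k (i, b)) m = dirVec (i, b) (Equiv.swap j k m)
    cases b <;> simp [swapDir, dirVec, Pi.single_apply, Equiv.swap_apply_eq_iff]
  · intro x
    simp only [dotR]
    rw [← Equiv.sum_comp (Equiv.swap j k)]
    refine Finset.sum_congr rfl fun i _ => ?_
    simp [swapHom]

lemma AR_smul {c : ℝ} (hc : 0 < c) (u : Fin d → ℝ) : AR (c • u) = AR u := by
  ext s
  have e : ∀ n, dotR (c • u) (pos s n) = c * dotR u (pos s n) := fun n => by
    simp [dotR, Finset.mul_sum, mul_assoc]
  simp only [AR, Set.mem_ofPred_eq, e]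
  exact tendsto_const_mul_atTop_of_pos hc

lemma AR_inter_subset (a b : Fin d → ℝ) : AR a ∩ AR b ⊆ AR (a + b) := by
  rintro s ⟨h1, h2⟩
  refine (Tendsto.atTop_add_atTop h1 h2).congr fun n => ?_
  simp [dotR, add_mul, Finset.sum_add_distrib]

/-- No escape in any direction under the symmetries of the axes. -/
theorem symmetric_null (he : IsElliptic μ)
    (hflip : ∀ k, μ.map (fun p : Row d => p.1 ∘ flipDir k) = μ.map Subtype.val)
    (hswap : ∀ k, ∃ j, j ≠ k ∧ μ.map (fun p : Row d => p.1 ∘ swapDir j k) = μ.map Subtype.val)
    (u : Fin d → ℝ) : annealed μ (AR u) = 0 := by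
  classical
  -- integer directions
  have hint : ∀ ℓ : Fin d → ℤ, annealed μ (Ap ℓ) = 0 := by
    intro ℓ
    by_contra hA
    obtain ⟨v, hv, hline, hortho⟩ := exists_line he hA
    have inv : ∀ w w' : Fin d → ℝ, annealed μ (AR w) = annealed μ (AR w') →
        annealed μ (AR (-w)) = annealed μ (AR (-w')) → ∑ i, w i * v i = 0 →
        ∑ i, w' i * v i = 0 := by
      intro w w' e1 e2 hw
      rcases lt_trichotomy (∑ i, w' i * v i) 0 with h | h | h
      · refine absurd ((line_consequences hline (u := -w') (by rw [sum_neg_mul]; linarith)).1) ?_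
        rw [← e2, hortho (-w) (by rw [sum_neg_mul, hw, neg_zero])]
        exact Ne.symm hA
      · exact h
      · refine absurd ((line_consequences hline h).1) ?_
        rw [← e1, hortho w hw]
        exact Ne.symm hA
    obtain ⟨k, hk⟩ : ∃ k, v k ≠ 0 := by
      by_contra hc
      push Not at hc
      simp [hc] at hv
    have honly : ∀ j, j ≠ k → v j = 0 := by
      intro j hj
      by_contra hvj
      set w : Fin d → ℝ := Pi.single j (v k) - Pi.single k (v j) with hw
      have h0 : ∑ i, w i * v i = 0 := by
        simp [w, sub_mul, Pi.single_apply, Finset.sum_sub_distrib]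
        ring
      have h1 := inv w (flipVec j w) (AR_flip j (hflip j) w) (by
        rw [AR_flip j (hflip j) (-w)]
        congr 2
        funext i; by_cases hi : i = j <;> simp [flipVec, hi]) h0
      have e : flipVec j w = fun i => -(Pi.single j (v k) : Fin d → ℝ) i -
          (Pi.single k (v j) : Fin d → ℝ) i := by
        funext i
        by_cases hi : i = j
        · subst hi; simp [flipVec, w, hj]
        · simp [flipVec, w, hi]
      rw [e] at h1
      simp [sub_mul, Pi.single_apply, Finset.sum_sub_distrib] at h1
      have hne : v k * v j ≠ 0 := mul_ne_zero hk hvj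
      apply hne
      linarith
    obtain ⟨j, hj, hs⟩ := hswap k
    set w : Fin d → ℝ := Pi.single j 1
    have h1 := inv w (w ∘ Equiv.swap j k) (AR_swap j k hs w)
      ((AR_swap j k hs (-w)).trans rfl) (by simp [w, Pi.single_apply, honly j hj])
    have e : w ∘ Equiv.swap j k = (Pi.single k 1 : Fin d → ℝ) := by
      funext i
      simp [w, Pi.single_apply, Equiv.swap_apply_eq_iff]
    rw [e] at h1
    simp [Pi.single_apply] at h1
    exact hk h1
  -- real directions, by induction on the support
  suffices h : ∀ n, ∀ u : Fin d → ℝ, (Finset.univ.filter fun i => u i ≠ 0).card ≤ n →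
      annealed μ (AR u) = 0 from h _ u le_rfl
  intro n
  induction n with
  | zero =>
    intro u hu
    by_contra hne
    refine ne_zero_of_AR hne (funext fun i => ?_)
    have := Finset.card_eq_zero.1 (Nat.le_zero.1 hu)
    simpa using Finset.eq_empty_iff_forall_notMem.1 this i
  | succ n ih =>
    intro u hu
    by_contra hne
    obtain ⟨k, hk⟩ := Function.ne_iff.1 (ne_zero_of_AR hne)
    simp only [Pi.zero_apply] at hk
    have hne' : annealed μ (AR (flipVec k u)) ≠ 0 := by rwa [← AR_flip k (hflip k) u]
    refine hne (measure_mono_null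
      (t := AR (Function.update u k 0) ∪ AR (Pi.single k (u k)) ∪
        (AR (flipVec k u) ∪ AR (-flipVec k u))ᶜ) ?_
      (measure_union_null (measure_union_null (ih _ ?_) ?_) (union_law he hne')))
    · intro s hs
      by_cases h : s ∈ AR (flipVec k u) ∪ AR (-flipVec k u)
      swap
      · exact Or.inr h
      left
      rcases h with h | h
      · left
        have h2 := AR_inter_subset _ _ ⟨hs, h⟩
        have e : u + flipVec k u = (2 : ℝ) • Function.update u k 0 := by
          funext i
          by_cases hi : i = k <;> simp [flipVec, hi, two_mul]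
        rwa [e, AR_smul two_pos] at h2
      · right
        have h2 := AR_inter_subset _ _ ⟨hs, h⟩
        have e : u + -flipVec k u = (2 : ℝ) • Pi.single k (u k) := by
          funext i
          by_cases hi : i = k <;> simp [flipVec, hi, two_mul]
        rwa [e, AR_smul two_pos] at h2
    · have e : (Finset.univ.filter fun i => Function.update u k 0 i ≠ 0) =
          (Finset.univ.filter fun i => u i ≠ 0).erase k := by
        ext i
        by_cases hi : i = k <;> simp [hi]
      rw [e, Finset.card_erase_of_mem (by simp [hk])]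
      omega
    · rcases lt_or_gt_of_ne hk with h | h
      · have e : (Pi.single k (u k) : Fin d → ℝ) =
            (-u k) • fun i => (((-Pi.single k 1 : Fin d → ℤ) i : ℤ) : ℝ) := by
          funext i
          by_cases hi : i = k <;> simp [hi]
        rw [e, AR_smul (by linarith), AR_intCast]
        exact hint _
      · have e : (Pi.single k (u k) : Fin d → ℝ) =
            (u k) • fun i => (((Pi.single k 1 : Fin d → ℤ) i : ℤ) : ℝ) := by
          funext i
          by_cases hi : i = k <;> simp [hi]
        rw [e, AR_smul h, AR_intCast]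
        exact hint _

end Vale.Agent.P147
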