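import Vale.Agent.P147.Dir.Chain

/-!
Probability of a deviation of the tilted coordinate near a given level.
-/

noncomputable section

namespace Vale.Agent.P147

open MeasureTheory ProbabilityTheory Filter
open scoped ENNReal

set_option linter.unusedSectionVars false

section seq

variable {α : Type*} [MeasurableSpace α] [MeasurableSingletonClass α] [Countable α]

/-- An event of the first `k` terms is independent of the shifted sequence. -/
lemma seqLaw_inter_shift (p : PMF α) (k : ℕ) {E F : Set (ℕ → α)}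
    (hE : ∀ ω η, head k ω = head k η → ω ∈ E → η ∈ E) (hF : MeasurableSet F) :
    seqLaw p (E ∩ (fun ω i => ω (k + i)) ⁻¹' F) = seqLaw p E * seqLaw p F := by
  have hEm := measurableSet_of_head k hE
  have hm : Measurable fun (ω : ℕ → α) i => ω (k + i) := by fun_prop
  conv_lhs => rw [← seqLaw_map_glue p k]
  rw [Measure.map_apply (measurable_glue k) (hEm.inter (hm hF))]
  have : glue k ⁻¹' (E ∩ (fun (ω : ℕ → α) i => ω (k + i)) ⁻¹' F) = E ×ˢ F := by
    ext q
    have hh : head k (glue k q) = head k q.1 := by funext i; simp [head]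
    simp only [Set.mem_preimage, Set.mem_inter_iff, Set.mem_prod, glue_add]
    exact and_congr_left fun _ => ⟨hE _ _ hh, hE _ _ hh.symm⟩
  rw [this, Measure.prod_prod]

end seq

variable {d : ℕ} {μ : Measure (Row d)} {ℓ : Fin d → ℤ} {ψ : (Fin d → ℤ) →+ ℤ} {sl h lam : ℕ}

/-- Variation of the tilted coordinate inside a block, the lateral part truncated at `B`. -/
def bvar (ψ : (Fin d → ℤ) →+ ℤ) (sl B : ℕ) (b : Blk ℓ) : ℕ :=
  min (2 * lext ψ b) B + 2 * sl * blkLev b

lemma lev_start (ω : ℕ → Blk ℓ) (J : ℕ) :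
    lev ℓ (endPt (cat (head J ω))) = ((psum blkLev ω J : ℕ) : ℤ) := by
  rw [lev_cat, psum_head]

lemma psum_succ (f : Blk ℓ → ℕ) (ω : ℕ → Blk ℓ) (k : ℕ) :
    psum f ω (k + 1) = psum f ω k + f (ω k) := by simp [psum, Finset.sum_range_succ]

lemma psum_gap (ω : ℕ → Blk ℓ) {i j : ℕ} (hij : i ≤ j) :
    psum blkLev ω i + (j - i) ≤ psum blkLev ω j := by
  induction j, hij using Nat.le_induction with
  | base => simp
  | succ j hj ih =>
    rw [psum_succ]
    have : 1 ≤ blkLev (ω j) := by
      have := (ω j).2.lev_pos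
      simp only [blkLev]; omega
    omega

lemma lev_in_block (b : Blk ℓ) {i : ℕ} (hi : i ≤ b.1.length) :
    0 ≤ lev ℓ (endPt (b.1.take i)) ∧ lev ℓ (endPt (b.1.take i)) ≤ blkLev b := by
  have h0 := b.2.lev_pos
  refine ⟨b.2.nonneg i hi, ?_⟩
  rw [blkLev, Int.toNat_of_nonneg h0.le]
  rcases hi.lt_or_eq with h | h
  · have := b.2.last i h
    rw [Lt_length] at this
    exact this.le
  · rw [h, List.take_length]

lemma wt_start_diff (ω : ℕ → Blk ℓ) {i j : ℕ} (hij : i ≤ j) :
    wt ℓ ψ sl (endPt (cat (head j ω))) - wt ℓ ψ sl (endPt (cat (head i ω))) ≤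
      ∑ t ∈ Finset.Ico i j, ((2 * lext ψ (ω t) + 2 * sl * blkLev (ω t) : ℕ) : ℤ) := by
  induction j, hij using Nat.le_induction with
  | base => simp
  | succ j hj ih =>
    rw [Finset.sum_Ico_succ_top hj, head_succ_cat, endPt_append, map_add]
    have h1 : wt ℓ ψ sl (endPt (ω j).1) ≤
        ((2 * lext ψ (ω j) + 2 * sl * blkLev (ω j) : ℕ) : ℤ) := by
      rw [wt_apply]
      have h2 := (abs_le.1 (abs_psi_le_ext (ψ := ψ) (ω j) (le_refl (ω j).1.length))).2
      rw [List.take_length] at h2
      rw [blkLev]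
      push_cast
      rw [Int.toNat_of_nonneg (ω j).2.lev_pos.le]
      omega
    linarith

lemma cover_unique (ω : ℕ → Blk ℓ) {c I I' : ℕ} (h1 : psum blkLev ω I ≤ c)
    (h2 : c < psum blkLev ω (I + 1)) (h1' : psum blkLev ω I' ≤ c)
    (h2' : c < psum blkLev ω (I' + 1)) : I = I' := by
  rcases lt_trichotomy I I' with h | h | h
  · have := psum_gap ω (show I + 1 ≤ I' by omega); omega
  · exact h
  · have := psum_gap ω (show I' + 1 ≤ I by omega); omega

/-- The block `I` straddles `c` and starts at level `e`. -/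
def CoverAt (ℓ : Fin d → ℤ) (c I e : ℕ) : Set (ℕ → Blk ℓ) :=
  {ω | psum blkLev ω I = e ∧ c < e + blkLev (ω I)}

/-- Heavy averages backwards from the index `I`. -/
def HeavyBack (f : Blk ℓ → ℕ) (lam N I : ℕ) : Set (ℕ → Blk ℓ) :=
  {ω | ∃ j, 1 ≤ j ∧ j ≤ N ∧ j ≤ I ∧ lam * j < ∑ t ∈ Finset.range j, f (ω (I - 1 - t))}

/-- A block near the level `c` carries a deviation. -/
def TrigBlocks (ℓ : Fin d → ℤ) (f : Blk ℓ → ℕ) (lam h c : ℕ) : Set (ℕ → Blk ℓ) :=
  ⋃ I ∈ Finset.range (c + 1), ⋃ e ∈ Finset.range (c + 1), CoverAt ℓ c I e ∩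
    ((fun ω i => ω ((I + 1) + i)) ⁻¹' HeavySeq f lam (h + 1) ∪
      (fun ω i => ω (I + i)) ⁻¹' {η | lam < f (η 0)} ∪ HeavyBack f lam (h + 1) I)

variable [IsProbabilityMeasure μ]

lemma exists_cover (ω : ℕ → Blk ℓ) (c : ℕ) :
    ∃ I ≤ c, psum blkLev ω I ≤ c ∧ c < psum blkLev ω (I + 1) := by
  classical
  have hex : ∃ I, c < psum blkLev ω (I + 1) := by
    refine ⟨c, ?_⟩
    have := psum_gap ω (Nat.zero_le (c + 1)); omega
  refine ⟨Nat.find hex, Nat.find_le ?_, ?_, Nat.find_spec hex⟩
  · have := psum_gap ω (Nat.zero_le (c + 1)); omega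
  · by_contra hlt
    rcases Nat.eq_zero_or_pos (Nat.find hex) with h0 | h0
    · rw [h0] at hlt; simp [psum] at hlt
    · refine Nat.find_min hex (show Nat.find hex - 1 < Nat.find hex by omega) ?_
      rw [Nat.sub_add_cancel h0]; omega

/-- A trigger is seen in the blocks. -/
theorem trig_le (hp : annealed μ (Dp ℓ) ≠ 0) (c : ℕ) :
    annealed μ (Dp ℓ ∩ {s | ∃ t, Trig ℓ ψ sl h (4 * lam) c (pre s t)}) ≤
      annealed μ (Dp ℓ) * seqLaw (blkPMF μ hp)
        (TrigBlocks ℓ (bvar ψ sl (4 * lam * h + 1)) lam h c) := by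
  classical
  set f : Blk ℓ → ℕ := bvar ψ sl (4 * lam * h + 1) with hf
  refine Dp_inter_le hp (k := c + 2 * h + 3) ?_ ?_
  · intro ω η he hω
    simp only [TrigBlocks, Set.mem_iUnion, Finset.mem_range] at hω ⊢
    obtain ⟨I, hI, e, hee, ⟨h1, h2⟩, hh⟩ := hω
    have heq : ∀ t < c + 2 * h + 3, η t = ω t := fun t ht => (congrFun he ⟨t, ht⟩).symm
    refine ⟨I, hI, e, hee, ⟨?_, ?_⟩, ?_⟩
    · rw [← h1]
      exact Finset.sum_congr rfl fun t ht => by
        rw [heq t (by have := Finset.mem_range.1 ht; omega)]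
    · rw [heq I (by omega)]; exact h2
    · rcases hh with (⟨j, hj1, hj2, hj⟩ | hm) | ⟨j, hj1, hj2, hj3, hj⟩
      · refine Or.inl (Or.inl ⟨j, hj1, hj2, hj.trans_eq (Finset.sum_congr rfl fun t ht => ?_)⟩)
        have := Finset.mem_range.1 ht
        simp only [zero_add]
        rw [heq _ (by omega)]
      · refine Or.inl (Or.inr ?_)
        simp only [Set.mem_preimage, Set.mem_ofPred_eq, add_zero] at hm ⊢
        rw [heq I (by omega)]; exact hm
      · refine Or.inr ⟨j, hj1, hj2, hj3, hj.trans_eq (Finset.sum_congr rfl fun t ht => ?_)⟩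
        have := Finset.mem_range.1 ht
        rw [heq _ (by omega)]
  rintro ω s hs ⟨t, -, hnn, m, hm1, hmh, htop, u, hu, ⟨i, hiu, hilow⟩, hdev⟩
  rw [length_pre] at hu
  rw [endPt_pre, endPt_take_pre s hu] at hdev
  rw [Lt_pre s (hiu.trans hu)] at hilow
  set k := c + 2 * h + 3
  have hlev : ∀ q ≤ t, lev ℓ (pos s q) ≤ (c : ℤ) + m := fun q hq => by
    have := htop q (by simpa using hq)
    rwa [Lt_pre s hq] at this
  have hlen : t < (cat (head k ω)).length := by
    by_contra hge
    rw [not_lt] at hge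
    have h1 := (blkEvent_regen _ hs).2 t hge
    rw [pos_of_mem_cyl hs.1 le_rfl, List.take_length, lev_start] at h1
    have := psum_gap ω (Nat.zero_le k)
    have := hlev t le_rfl
    omega
  obtain ⟨J, hJ, v, hv, htJ⟩ := exists_block_at ω hlen
  obtain ⟨J', hJ', v', hv', huJ⟩ := exists_block_at ω (show u < (cat (head k ω)).length by omega)
  have hJJ : J' ≤ J := by
    by_contra hlt
    have := start_mono ω (show J + 1 ≤ J' by omega)
    rw [head_succ_cat, List.length_append] at this
    omega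
  -- positions
  have hpt := pos_block hs.1 hJ hv.le
  have hpu := pos_block hs.1 hJ' hv'.le
  rw [← htJ] at hpt
  rw [← huJ] at hpu
  obtain ⟨l1, l2⟩ := lev_in_block (ω J) hv.le
  obtain ⟨l3, l4⟩ := lev_in_block (ω J') hv'.le
  set g : ℕ → ℕ := fun q => 2 * lext ψ (ω q) + 2 * sl * blkLev (ω q) with hg
  have hvar : (4 * lam * m : ℤ) < ∑ q ∈ Finset.Icc J' J, (g q : ℤ) := by
    refine lt_of_lt_of_le (by push_cast at hdev; exact hdev) ?_
    rw [hpt, hpu, map_add, map_add]
    have a1 := (abs_le.1 (abs_psi_le_ext (ψ := ψ) (ω J) hv.le)).2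
    have a2 := (abs_le.1 (abs_psi_le_ext (ψ := ψ) (ω J') hv'.le)).1
    have hWJ : wt ℓ ψ sl (endPt ((ω J).1.take v)) ≤ lext ψ (ω J) + 2 * sl * blkLev (ω J) := by
      rw [wt_apply]
      have := mul_le_mul_of_nonneg_left l2 (show (0 : ℤ) ≤ 2 * sl by positivity)
      omega
    have hWJ' : -(lext ψ (ω J') : ℤ) ≤ wt ℓ ψ sl (endPt ((ω J').1.take v')) := by
      rw [wt_apply]
      have : (0 : ℤ) ≤ 2 * sl * lev ℓ (endPt ((ω J').1.take v')) := by positivity
      omega
    rcases hJJ.eq_or_lt with hEq | hLt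
    · subst hEq
      simp only [Finset.Icc_self, Finset.sum_singleton, hg]
      push_cast
      linarith
    · have h5 := wt_start_diff (ψ := ψ) (sl := sl) ω hJJ
      rw [← Finset.Ico_succ_right_eq_Icc, Order.succ_eq_add_one, Finset.sum_Ico_succ_top hJJ]
      rw [← Finset.sum_erase_add (Finset.Ico J' J) _ (Finset.mem_Ico.2 ⟨le_rfl, hLt⟩)] at h5 ⊢
      simp only [hg]
      push_cast at h5 ⊢
      have h7 : (0 : ℤ) ≤ lext ψ (ω J) := Int.natCast_nonneg _
      have h8 := wt_start_diff (ψ := ψ) (sl := sl) ω (show J' + 1 ≤ J from hLt)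
      have h9 : (Finset.Ico J' J).erase J' = Finset.Ico (J' + 1) J := by
        ext q; simp only [Finset.mem_erase, Finset.mem_Ico]; omega
      rw [h9]
      push_cast at h8
      rw [head_succ_cat ω J', endPt_append, map_add] at h8
      have hX : wt ℓ ψ sl (endPt (ω J').1) ≤ lext ψ (ω J') + 2 * sl * blkLev (ω J') := by
        rw [wt_apply, blkLev, Int.toNat_of_nonneg (ω J').2.lev_pos.le]
        have := (abs_le.1 (abs_psi_le_ext (ψ := ψ) (ω J') (le_refl (ω J').1.length))).2
        rw [List.take_length] at this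
        linarith
      linarith
  -- truncation
  have hsum : 4 * lam * m < ∑ q ∈ Finset.Icc J' J, f (ω q) := by
    by_cases hall : ∀ q ∈ Finset.Icc J' J, 2 * lext ψ (ω q) ≤ 4 * lam * h + 1
    · have : ∑ q ∈ Finset.Icc J' J, f (ω q) = ∑ q ∈ Finset.Icc J' J, g q :=
        Finset.sum_congr rfl fun q hq => by simp [f, g, bvar, min_eq_left (hall q hq)]
      rw [this]
      exact_mod_cast hvar
    · push Not at hall
      obtain ⟨q, hq, hbig⟩ := hall
      calc 4 * lam * m < 4 * lam * h + 1 := Nat.lt_succ_of_le (Nat.mul_le_mul_left _ hmh)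
        _ ≤ f (ω q) := by simp [f, bvar, min_eq_right hbig.le]
        _ ≤ _ := Finset.single_le_sum (f := fun q => f (ω q)) (fun _ _ => Nat.zero_le _) hq
  -- position of the straddling block
  obtain ⟨I, hIc, hI1, hI2⟩ := exists_cover ω c
  have hJI : J ≤ I + m := by
    by_contra hlt
    have h1 := hlev t le_rfl
    rw [hpt, map_add, lev_start] at h1
    have := psum_gap ω (show I + 1 ≤ J by omega)
    omega
  have hIJ : I ≤ J' + (m + 1) := by
    by_contra hlt
    have hi' : i < (cat (head k ω)).length := by omega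
    obtain ⟨Q, hQ, w, hw, hiQ⟩ := exists_block_at ω hi'
    have hQJ : Q ≤ J' := by
      by_contra hlt'
      have := start_mono ω (show J' + 1 ≤ Q by omega)
      rw [head_succ_cat, List.length_append] at this
      omega
    have hpi := pos_block hs.1 hQ hw.le
    rw [← hiQ] at hpi
    have l5 := (lev_in_block (ω Q) hw.le).2
    rw [hpi, map_add, lev_start] at hilow
    have := psum_succ blkLev ω Q
    have := psum_gap ω (show Q + 1 ≤ I by omega)
    omega
  simp only [TrigBlocks, Set.mem_iUnion, Finset.mem_range]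
  refine ⟨I, by omega, psum blkLev ω I, by omega, ⟨rfl, by rw [← psum_succ]; exact hI2⟩, ?_⟩
  -- split the window in three
  set back := ∑ q ∈ Finset.Ico (I - (m + 1)) I, f (ω q)
  set fwd := ∑ q ∈ Finset.Ico (I + 1) (I + 1 + m), f (ω q)
  have hsplit : ∑ q ∈ Finset.Icc J' J, f (ω q) ≤ back + f (ω I) + fwd := by
    refine (Finset.sum_le_sum_of_subset (t := Finset.Ico (I - (m + 1)) (I + 1 + m)) ?_).trans
      (le_of_eq ?_)
    · intro q hq
      simp only [Finset.mem_Icc] at hq
      simp only [Finset.mem_Ico]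
      omega
    · simp only [back, fwd]
      rw [← Finset.sum_Ico_succ_top (show I - (m + 1) ≤ I by omega),
        Finset.sum_Ico_consecutive _ (by omega) (by omega)]
  have hlm : lam ≤ lam * m := Nat.le_mul_of_pos_right lam hm1
  have h4m : 4 * lam * m = 4 * (lam * m) := by ring
  rcases lt_or_ge (2 * (lam * m)) back with hb | hb
  · refine Or.inr ⟨I - (I - (m + 1)), ?_, by omega, by omega, ?_⟩
    · by_contra h0
      simp only [back] at hb
      rw [show I - (m + 1) = I by omega, Finset.Ico_self, Finset.sum_empty] at hb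
      exact Nat.not_lt_zero _ hb
    · calc lam * (I - (I - (m + 1))) ≤ lam * (m + 1) := Nat.mul_le_mul_left _ (by omega)
        _ ≤ 2 * (lam * m) := by rw [mul_add, mul_one]; omega
        _ < back := hb
        _ = _ := by
          simp only [back]
          rw [Finset.sum_Ico_eq_sum_range, ← Finset.sum_range_reflect]
          refine Finset.sum_congr rfl fun q hq => ?_
          have := Finset.mem_range.1 hq
          congr 2
          omega
  rcases lt_or_ge (lam * m) fwd with hf' | hf'
  · refine Or.inl (Or.inl ⟨m, hm1, by omega, ?_⟩)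
    simp only [fwd] at hf'
    rw [Finset.sum_Ico_eq_sum_range, show I + 1 + m - (I + 1) = m by omega] at hf'
    simpa [zero_add] using hf'
  · refine Or.inl (Or.inr ?_)
    simp only [Set.mem_preimage, Set.mem_ofPred_eq, add_zero]
    omega

/-- Probability of the block event. -/
theorem trigBlocks_le (p : PMF (Blk ℓ)) (f : Blk ℓ → ℕ) (N c : ℕ) :
    seqLaw p (TrigBlocks ℓ f lam N c) ≤
      (1 + ∑' b, p b * (blkLev b : ℝ≥0∞)) * seqLaw p (HeavySeq f lam (N + 1)) +
        ∑' b, {b : Blk ℓ | lam < f b}.indicator (fun b => p b * (blkLev b : ℝ≥0∞)) b := by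
  classical
  set P := seqLaw p
  set Q := P (HeavySeq f lam (N + 1))
  set M := ∑' b, {b : Blk ℓ | lam < f b}.indicator (fun b => p b * (blkLev b : ℝ≥0∞)) b
  set EH := ∑' b, p b * (blkLev b : ℝ≥0∞)
  set R := Finset.range (c + 1) ×ˢ Finset.range (c + 1)
  let K : ℕ → ℕ → Set (ℕ → Blk ℓ) := fun I e => {ω | psum blkLev ω I = e}
  have hpsd : ∀ I, ∀ ω η : ℕ → Blk ℓ, head I ω = head I η →
      psum blkLev ω I = psum blkLev η I := fun I ω η hh => by rw [psum_head, psum_head, hh]
  have hKdep : ∀ I e, ∀ ω η, head I ω = head I η → ω ∈ K I e → η ∈ K I e :=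
    fun I e ω η hh hω => (hpsd I ω η hh).symm.trans hω
  have hcovdep : ∀ I e, ∀ ω η, head (I + 1) ω = head (I + 1) η →
      ω ∈ CoverAt ℓ c I e → η ∈ CoverAt ℓ c I e := by
    intro I e ω η hh hω
    have h1 : ω I = η I := congrFun hh ⟨I, I.lt_succ_self⟩
    refine ⟨(hpsd I ω η ?_).symm.trans hω.1, h1 ▸ hω.2⟩
    funext i; exact congrFun hh ⟨i, i.2.trans I.lt_succ_self⟩
  have hF : MeasurableSet (HeavySeq f lam (N + 1)) := measurableSet_heavySeq f lam (N + 1)
  have h0m : ∀ S : Set (Blk ℓ), MeasurableSet {η : ℕ → Blk ℓ | η 0 ∈ S} := fun S =>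
    measurable_pi_apply 0 trivial
  have hP0 : ∀ S : Set (Blk ℓ), P {η | η 0 ∈ S} = ∑' b, S.indicator (fun b => p b) b := by
    intro S
    have h1 : {η : ℕ → Blk ℓ | η 0 ∈ S} = {η | head 1 η ∈ {g | g 0 ∈ S}} := rfl
    rw [h1, seqLaw_head_mem, ← (Equiv.funUnique (Fin 1) (Blk ℓ)).symm.tsum_eq]
    exact tsum_congr fun b => by by_cases hb : b ∈ S <;> simp [hb, Set.indicator_apply]
  have hK1 : ∀ e, ∑ I ∈ Finset.range (c + 1), P (K I e) ≤ 1 := by
    intro e
    rw [← measure_biUnion_finset ?_ fun I _ => measurableSet_of_head I (hKdep I e)]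
    · exact prob_le_one
    · intro I _ I' _ hne
      refine Set.disjoint_left.2 fun ω hω hω' => hne ?_
      rcases lt_trichotomy I I' with h | h | h
      · have := psum_gap ω h.le; simp only [K, Set.mem_ofPred_eq] at hω hω'; omega
      · exact h
      · have := psum_gap ω h.le; simp only [K, Set.mem_ofPred_eq] at hω hω'; omega
  have hfwd : ∀ I e, P (CoverAt ℓ c I e ∩ (fun ω i => ω ((I + 1) + i)) ⁻¹'
      HeavySeq f lam (N + 1)) = P (CoverAt ℓ c I e) * Q :=
    fun I e => seqLaw_inter_shift p (I + 1) (hcovdep I e) hF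
  have hcov1 : ∑ q ∈ R, P (CoverAt ℓ c q.1 q.2) ≤ 1 := by
    rw [← measure_biUnion_finset ?_ fun q _ => measurableSet_of_head (q.1 + 1) (hcovdep q.1 q.2)]
    · exact prob_le_one
    · intro q hq q' hq' hne
      refine Set.disjoint_left.2 fun ω hω hω' => hne ?_
      simp only [R, Finset.coe_product, Set.mem_prod, Finset.coe_range, Set.mem_Iio] at hq hq'
      obtain ⟨a1, a2⟩ := hω
      obtain ⟨b1, b2⟩ := hω'
      have := cover_unique ω (I := q.1) (I' := q'.1) (c := c) (by omega)
        (by rw [psum_succ]; omega) (by omega) (by rw [psum_succ]; omega)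
      exact Prod.ext this (by rw [← a1, ← b1, this])
  have htail : ∀ S : Set (Blk ℓ), ∑ e ∈ Finset.range (c + 1),
      P {η | η 0 ∈ S ∩ {b | c < e + blkLev b}} ≤
        ∑' b, S.indicator (fun b => p b * (blkLev b : ℝ≥0∞)) b := by
    intro S
    simp only [hP0]
    rw [← Summable.tsum_finsetSum fun _ _ => ENNReal.summable]
    refine ENNReal.tsum_le_tsum fun b => ?_
    by_cases hb : b ∈ S
    · rw [Set.indicator_of_mem hb, Finset.sum_congr rfl (fun e _ => Set.indicator_apply _ _ _)]
      simp only [Set.mem_inter_iff, hb, true_and, Set.mem_ofPred_eq]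
      rw [← Finset.sum_filter, Finset.sum_const, nsmul_eq_mul, mul_comm]
      refine mul_le_mul' le_rfl (Nat.cast_le.2 ?_)
      calc ((Finset.range (c + 1)).filter fun e => c < e + blkLev b).card
          ≤ (Finset.Ico (c + 1 - blkLev b) (c + 1)).card := by
            refine Finset.card_le_card fun e he => ?_
            simp only [Finset.mem_filter, Finset.mem_range] at he
            simp only [Finset.mem_Ico]
            omega
        _ ≤ blkLev b := by rw [Nat.card_Ico]; omega
    · simp [hb]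
  have hmid : ∀ I e, P (CoverAt ℓ c I e ∩ (fun ω i => ω (I + i)) ⁻¹' {η | lam < f (η 0)}) =
      P (K I e) * P {η | η 0 ∈ {b | lam < f b} ∩ {b | c < e + blkLev b}} := by
    intro I e
    have : CoverAt ℓ c I e ∩ (fun ω i => ω (I + i)) ⁻¹' {η | lam < f (η 0)} =
        K I e ∩ (fun ω i => ω (I + i)) ⁻¹'
          {η | η 0 ∈ {b | lam < f b} ∩ {b | c < e + blkLev b}} := by
      ext ω
      simp only [CoverAt, K, Set.mem_inter_iff, Set.mem_ofPred_eq, Set.mem_preimage, add_zero]
      tauto
    rw [this, seqLaw_inter_shift p I (hKdep I e) (h0m _)]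
  have hback : ∀ I e, P (CoverAt ℓ c I e ∩ HeavyBack f lam (N + 1) I) ≤
      P (K I e ∩ HeavySeq f lam (N + 1)) * P {η | η 0 ∈ {b | c < e + blkLev b}} := by
    intro I e
    have hdep : ∀ ω η, head I ω = head I η → ω ∈ K I e ∩ HeavyBack f lam (N + 1) I →
        η ∈ K I e ∩ HeavyBack f lam (N + 1) I := by
      intro ω η hh ⟨hk, j, hj1, hj2, hj3, hj⟩
      refine ⟨hKdep I e ω η hh hk, j, hj1, hj2, hj3,
        hj.trans_eq (Finset.sum_congr rfl fun t _ => ?_)⟩
      have h2 := congrFun hh ⟨I - 1 - t, by omega⟩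
      simp only [head] at h2
      rw [h2]
    have : CoverAt ℓ c I e ∩ HeavyBack f lam (N + 1) I = (K I e ∩ HeavyBack f lam (N + 1) I) ∩
        (fun ω i => ω (I + i)) ⁻¹' {η | η 0 ∈ {b | c < e + blkLev b}} := by
      ext ω
      simp only [CoverAt, K, Set.mem_inter_iff, Set.mem_ofPred_eq, Set.mem_preimage, add_zero]
      tauto
    rw [this, seqLaw_inter_shift p I hdep (h0m _)]
    refine mul_le_mul' ?_ le_rfl
    -- reversal
    let S : Set (Fin I → Blk ℓ) := {g | ∑ i, blkLev (g i) = e ∧
      ∃ j, 1 ≤ j ∧ j ≤ N + 1 ∧ ∃ hj : j ≤ I, lam * j < ∑ t : Fin j, f (g (Fin.castLE hj t))}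
    have e1 : K I e ∩ HeavyBack f lam (N + 1) I ⊆ {ω | head I ω ∘ Fin.rev ∈ S} := by
      rintro ω ⟨hk, j, hj1, hj2, hj3, hj⟩
      refine ⟨?_, j, hj1, hj2, hj3, ?_⟩
      · rw [← hk, psum_head]
        exact Fintype.sum_equiv Fin.revPerm _ _ fun i => rfl
      · refine hj.trans_eq ?_
        rw [Finset.sum_range]
        refine Finset.sum_congr rfl fun t _ => ?_
        simp only [head, Function.comp, Fin.val_rev, Fin.val_castLE]
        congr 2
        omega
    have e2 : {ω | head I ω ∈ S} ⊆ K I e ∩ HeavySeq f lam (N + 1) := by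
      rintro ω ⟨hk, j, hj1, hj2, hj3, hj⟩
      refine ⟨by simpa [K, psum_head] using hk, j, hj1, hj2, ?_⟩
      rw [Finset.sum_range]
      simpa [head] using hj
    refine le_trans (measure_mono e1) ?_
    rw [← seqLaw_head_rev]
    exact measure_mono e2
  have hKH : ∀ e, ∑ I ∈ Finset.range (c + 1), P (K I e ∩ HeavySeq f lam (N + 1)) ≤ Q := by
    intro e
    rw [← measure_biUnion_finset ?_ fun I _ => (measurableSet_of_head I (hKdep I e)).inter hF]
    · exact measure_mono (Set.iUnion₂_subset fun I _ => Set.inter_subset_right)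
    · intro I _ I' _ hne
      refine Set.disjoint_left.2 fun ω hω hω' => hne ?_
      rcases lt_trichotomy I I' with h | h | h
      · have := psum_gap ω h.le
        simp only [K, Set.mem_inter_iff, Set.mem_ofPred_eq] at hω hω'; omega
      · exact h
      · have := psum_gap ω h.le
        simp only [K, Set.mem_inter_iff, Set.mem_ofPred_eq] at hω hω'; omega
  calc P (TrigBlocks ℓ f lam N c)
      ≤ ∑ q ∈ R, (P (CoverAt ℓ c q.1 q.2) * Q +
          P (K q.1 q.2) * P {η | η 0 ∈ {b | lam < f b} ∩ {b | c < q.2 + blkLev b}} +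
          P (K q.1 q.2 ∩ HeavySeq f lam (N + 1)) * P {η | η 0 ∈ {b | c < q.2 + blkLev b}}) := by
        rw [Finset.sum_product, TrigBlocks]
        refine (measure_biUnion_finset_le _ _).trans (Finset.sum_le_sum fun I _ => ?_)
        refine (measure_biUnion_finset_le _ _).trans (Finset.sum_le_sum fun e _ => ?_)
        rw [Set.inter_union_distrib_left, Set.inter_union_distrib_left]
        refine (measure_union_le _ _).trans (add_le_add ((measure_union_le _ _).trans ?_) ?_)
        · rw [hfwd, hmid]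
        · exact hback I e
    _ ≤ Q + M + EH * Q := by
        rw [Finset.sum_add_distrib, Finset.sum_add_distrib]
        refine add_le_add (add_le_add ?_ ?_) ?_
        · rw [← Finset.sum_mul]
          exact mul_le_of_le_one_left' hcov1
        · rw [Finset.sum_product_right]
          refine le_trans (Finset.sum_le_sum fun e _ => ?_) (htail {b | lam < f b})
          dsimp only
          rw [← Finset.sum_mul]
          exact mul_le_of_le_one_left' (hK1 e)
        · rw [Finset.sum_product_right]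
          calc _ ≤ ∑ e ∈ Finset.range (c + 1), Q * P {η | η 0 ∈ {b | c < e + blkLev b}} :=
                Finset.sum_le_sum fun e _ => by
                  dsimp only
                  rw [← Finset.sum_mul]; exact mul_le_mul' (hKH e) le_rfl
            _ ≤ _ := by
                rw [← Finset.mul_sum, mul_comm]
                refine mul_le_mul' ?_ le_rfl
                simpa using htail Set.univ
    _ = _ := by ring

end Vale.Agent.P147
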